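import Vale.Agent.Lib.P262.Defs

open Finset

namespace Vale.Agent.Lib.P262

/-- pull a permutation of a mapped list back to the letters -/
lemma exists_perm_map {α β : Type*} (f : α → β) (L : List α) (l' : List β)
    (h : l'.Perm (L.map f)) : ∃ L' : List α, L'.Perm L ∧ L'.map f = l' := by
  induction L generalizing l' with
  | nil =>
    have : l' = [] := by simpa using h
    exact ⟨[], List.Perm.refl _, by simp [this]⟩
  | cons a L ih =>
    have hmem : f a ∈ l' := by
      have : f a ∈ (a :: L).map f := by simp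
      exact h.symm.subset this
    obtain ⟨l₁, l₂, rfl⟩ := List.append_of_mem hmem
    have h2 : (l₁ ++ l₂).Perm (L.map f) := by
      have : (f a :: (l₁ ++ l₂)).Perm (f a :: L.map f) := by
        refine List.Perm.trans ?_ (by simpa using h)
        exact (List.perm_middle).symm
      exact (List.perm_cons _).1 this
    obtain ⟨L', hL', hmap⟩ := ih _ h2
    -- split `L'` at the length of `l₁`
    have hlen : l₁.length ≤ L'.length := by
      have := congrArg List.length hmap
      simp at this
      omega
    refine ⟨L'.take l₁.length ++ a :: L'.drop l₁.length, ?_, ?_⟩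
    · refine List.perm_middle.trans ?_
      refine List.Perm.cons a ?_
      simpa using hL'
    · have h3 : (L'.take l₁.length).map f = l₁ := by
        rw [List.map_take, hmap]; simp
      have h4 : (L'.drop l₁.length).map f = l₂ := by
        rw [List.map_drop, hmap]; simp
      simp [h3, h4]

variable {ι : Type*} [DecidableEq ι]

/-- list sum over letters in terms of counts -/
lemma list_sum_eq_count {M : Type*} [AddCommMonoid M] (J : Finset ι) (L : List ι)
    (hL : ∀ a ∈ L, a ∈ J) (f : ι → M) :
    (L.map f).sum = ∑ j ∈ J, L.count j • f j := by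
  rw [Finset.sum_list_map_count]
  apply Finset.sum_subset
  · intro a ha
    exact hL a (by simpa using ha)
  · intro a _ ha
    have : L.count a = 0 := by
      apply List.count_eq_zero_of_not_mem
      simpa using ha
    simp [this]

lemma sum_count_eq_length (J : Finset ι) (L : List ι) (hL : ∀ a ∈ L, a ∈ J) :
    ∑ j ∈ J, L.count j = L.length := by
  have := list_sum_eq_count J L hL (fun _ => (1 : ℕ))
  simpa using this.symm

/-- a list with prescribed letter counts -/
lemma exists_list_count (J : Finset ι) (u : ι → ℕ) :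
    ∃ L : List ι, (∀ a ∈ L, a ∈ J) ∧ (∀ j ∈ J, L.count j = u j) := by
  induction J using Finset.induction_on with
  | empty => exact ⟨[], by simp, by simp⟩
  | insert j₀ s hj₀ ih =>
    obtain ⟨L, hL, hc⟩ := ih
    refine ⟨List.replicate (u j₀) j₀ ++ L, ?_, ?_⟩
    · intro a ha
      rcases List.mem_append.1 ha with h | h
      · have := List.eq_of_mem_replicate h
        simp [this]
      · exact Finset.mem_insert_of_mem (hL a h)
    · intro j hj
      have hnot : j₀ ∉ L := fun h => hj₀ (hL _ h)
      rw [List.count_append]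
      rcases Finset.mem_insert.1 hj with rfl | h
      · simp [List.count_eq_zero_of_not_mem hnot]
      · have hne : j₀ ≠ j := fun e => hj₀ (e ▸ h)
        simp [List.count_replicate, hne, hc j h]

/-! ### the cluster lemma -/

lemma exists_cluster (G : ℕ) (hG : 1 ≤ G) (y : ι → ℕ) :
    ∀ (n : ℕ) (I : Finset ι), I.card = n → I.Nonempty →
    ∃ J ⊆ I, J.Nonempty ∧ (∀ j ∈ J, G * ∑ i ∈ I \ J, y i ≤ y j) ∧
      (∀ j ∈ J, ∑ i ∈ I, y i ≤ (G + 1) ^ J.card * y j) := by
  intro n
  induction n with
  | zero =>
    intro I hI hne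
    rw [Finset.card_eq_zero] at hI
    simp [hI] at hne
  | succ n ih =>
    intro I hI hne
    obtain ⟨i₁, hi₁, hmax⟩ := Finset.exists_max_image I y hne
    set I' := I.erase i₁ with hI'
    have hsum : ∑ i ∈ I, y i = y i₁ + ∑ i ∈ I', y i := by
      rw [hI', Finset.add_sum_erase _ _ hi₁]
    by_cases hgap : G * ∑ i ∈ I', y i ≤ y i₁
    · refine ⟨{i₁}, by simpa using hi₁, by simp, ?_, ?_⟩
      · intro j hj
        have hj' : j = i₁ := by simpa using hj
        subst hj'
        have : I \ {j} = I' := by
          ext a; simp [hI', and_comm]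
        rw [this]; exact hgap
      · intro j hj
        have hj' : j = i₁ := by simpa using hj
        subst hj'
        rw [hsum]
        simp only [card_singleton, pow_one]
        have : ∑ i ∈ I', y i ≤ G * ∑ i ∈ I', y i := Nat.le_mul_of_pos_left _ hG
        nlinarith
    · push Not at hgap
      have hI'card : I'.card = n := by
        rw [hI', Finset.card_erase_of_mem hi₁, hI]; rfl
      have hI'ne : I'.Nonempty := by
        by_contra hcon
        rw [Finset.not_nonempty_iff_eq_empty] at hcon
        simp [hcon] at hgap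
      obtain ⟨J', hJ'sub, hJ'ne, h1, h2⟩ := ih I' hI'card hI'ne
      have hi₁J' : i₁ ∉ J' := fun h => by
        have := hJ'sub h
        simp [hI'] at this
      have hdiff : I \ insert i₁ J' = I' \ J' := by
        ext a
        simp only [mem_sdiff, mem_insert, hI', mem_erase]
        tauto
      refine ⟨insert i₁ J', ?_, by simp, ?_, ?_⟩
      · intro a ha
        rcases Finset.mem_insert.1 ha with rfl | h
        · exact hi₁
        · exact Finset.mem_of_mem_erase (hJ'sub h)
      · intro j hj
        rw [hdiff]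
        rcases Finset.mem_insert.1 hj with rfl | h
        · obtain ⟨j', hj'⟩ := hJ'ne
          refine (h1 j' hj').trans ?_
          exact hmax j' (Finset.mem_of_mem_erase (hJ'sub hj'))
        · exact h1 j h
      · rw [Finset.card_insert_of_notMem hi₁J']
        have key : ∀ j ∈ J', ∑ i ∈ I, y i ≤ (G + 1) ^ (J'.card + 1) * y j := by
          intro j hj
          have h3 := h2 j hj
          rw [hsum, pow_succ]
          have : y i₁ + ∑ i ∈ I', y i ≤ (G + 1) * ∑ i ∈ I', y i := by nlinarith
          calc y i₁ + ∑ i ∈ I', y i ≤ (G + 1) * ∑ i ∈ I', y i := this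
            _ ≤ (G + 1) * ((G + 1) ^ J'.card * y j) := Nat.mul_le_mul_left _ h3
            _ = (G + 1) ^ J'.card * (G + 1) * y j := by ring
        intro j hj
        rcases Finset.mem_insert.1 hj with rfl | h
        · obtain ⟨j', hj'⟩ := hJ'ne
          refine (key j' hj').trans ?_
          exact Nat.mul_le_mul_left _ (hmax j' (Finset.mem_of_mem_erase (hJ'sub hj')))
        · exact key j h

/-! ### the fine counting function -/

/-- number of letters released after `p` of `T` micro slots, out of `N` letters -/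
def cnt (p N T : ℕ) : ℕ := (2 * p * N + T) / (2 * T)

lemma cnt_zero (N T : ℕ) (hT : 0 < T) : cnt 0 N T = 0 := by
  unfold cnt
  simp only [mul_zero, zero_mul, zero_add]
  exact Nat.div_eq_of_lt (by omega)

lemma cnt_succ_le (p N T : ℕ) (hT : 0 < T) (hN : 2 * N ≤ T) : cnt (p + 1) N T ≤ cnt p N T + 1 := by
  unfold cnt
  have h2T : 0 < 2 * T := by omega
  have h : 2 * (p + 1) * N + T ≤ (2 * p * N + T) + 2 * T := by nlinarith
  calc (2 * (p + 1) * N + T) / (2 * T) ≤ ((2 * p * N + T) + 2 * T) / (2 * T) :=
        Nat.div_le_div_right h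
    _ = (2 * p * N + T) / (2 * T) + 1 := Nat.add_div_right _ h2T

lemma cnt_mono (p N T : ℕ) : cnt p N T ≤ cnt (p + 1) N T := by
  unfold cnt
  apply Nat.div_le_div_right
  nlinarith

lemma cnt_last (N T : ℕ) (hT : 0 < T) (hN : 2 * N ≤ T) : cnt (T - 1) N T = N := by
  unfold cnt
  obtain ⟨T', rfl⟩ : ∃ T', T = T' + 1 := ⟨T - 1, by omega⟩
  simp only [Nat.add_sub_cancel]
  apply Nat.div_eq_of_lt_le
  · nlinarith
  · nlinarith

lemma cnt_real (p N T : ℕ) (hT : 0 < T) (hN : 2 * N ≤ T) (s : ℝ) (h1 : (p : ℝ) / T ≤ s)
    (h2 : s ≤ ((p : ℝ) + 1) / T) : |(cnt p N T : ℝ) - s * N| ≤ 1 := by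
  have hT' : (0 : ℝ) < T := by exact_mod_cast hT
  have hNT : (N : ℝ) / T ≤ 1 / 2 := by
    rw [div_le_iff₀ hT']
    have : (2 * N : ℝ) ≤ T := by exact_mod_cast hN
    linarith
  have hNnn : (0 : ℝ) ≤ N := Nat.cast_nonneg N
  have h3 : (p : ℝ) / T * N ≤ s * N := mul_le_mul_of_nonneg_right h1 hNnn
  have h4 : s * N ≤ ((p : ℝ) + 1) / T * N := mul_le_mul_of_nonneg_right h2 hNnn
  have h5 : ((p : ℝ) + 1) / T * N = (p : ℝ) / T * N + (N : ℝ) / T := by ring
  -- floor bounds
  have hc1 : (cnt p N T : ℝ) ≤ (p : ℝ) / T * N + 1 / 2 := by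
    have : cnt p N T * (2 * T) ≤ 2 * p * N + T := by
      unfold cnt
      exact Nat.div_mul_le_self _ _
    have h' : ((cnt p N T : ℝ)) * (2 * T) ≤ 2 * p * N + T := by exact_mod_cast this
    have e : (p : ℝ) / T * N + 1 / 2 = (2 * p * N + T) / (2 * T) := by
      field_simp
    rw [e, le_div_iff₀ (by positivity)]
    exact h'
  have hc2 : (p : ℝ) / T * N + 1 / 2 < (cnt p N T : ℝ) + 1 := by
    have hlt : 2 * p * N + T < (cnt p N T + 1) * (2 * T) := by
      unfold cnt
      have h6 := Nat.div_add_mod (2 * p * N + T) (2 * T)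
      have h7 := Nat.mod_lt (2 * p * N + T) (show 0 < 2 * T by omega)
      nlinarith
    have h' : (2 * p * N + T : ℝ) < ((cnt p N T : ℝ) + 1) * (2 * T) := by exact_mod_cast hlt
    have e : (p : ℝ) / T * N + 1 / 2 = (2 * p * N + T) / (2 * T) := by
      field_simp
    rw [e, div_lt_iff₀ (by positivity)]
    exact h'
  rw [abs_le]
  constructor <;> linarith

end Vale.Agent.Lib.P262
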