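import Vale.Agent.Lib.P262.Cut

open Finset

namespace Vale.Agent.Lib.P262

/-- grid cells -/
noncomputable def cellFn (d ℓ : ℕ) (x : EuclideanSpace ℝ (Fin d)) : Fin d → ℤ :=
  fun i => ⌊(ℓ:ℝ) * x i⌋

lemma cell_close {d ℓ : ℕ} (hℓ : 0 < ℓ) {x x' : EuclideanSpace ℝ (Fin d)}
    (h : cellFn d ℓ x = cellFn d ℓ x') : ‖x - x'‖ ≤ (d:ℝ) / ℓ := by
  have hℓ' : (0:ℝ) < ℓ := by exact_mod_cast hℓ
  have hi : ∀ i, ‖(x - x') i‖ ^ 2 ≤ (1 / (ℓ:ℝ)) ^ 2 := by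
    intro i
    have h1 : |(ℓ:ℝ) * x i - (ℓ:ℝ) * x' i| < 1 :=
      Int.abs_sub_lt_one_of_floor_eq_floor (congrFun h i)
    have e : (ℓ:ℝ) * x i - (ℓ:ℝ) * x' i = (ℓ:ℝ) * (x i - x' i) := by ring
    rw [e, abs_mul, abs_of_pos hℓ'] at h1
    have h2 : |x i - x' i| ≤ 1 / (ℓ:ℝ) := by
      rw [le_div_iff₀ hℓ']
      linarith
    have e2 : ‖(x - x') i‖ = |x i - x' i| := by
      simp [Real.norm_eq_abs]
    rw [e2]
    exact pow_le_pow_left₀ (abs_nonneg _) h2 2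
  have h3 : ‖x - x'‖ ^ 2 ≤ ((d:ℝ) / ℓ) ^ 2 := by
    rw [EuclideanSpace.norm_sq_eq]
    calc ∑ i, ‖(x - x') i‖ ^ 2 ≤ ∑ _i : Fin d, (1 / (ℓ:ℝ)) ^ 2 :=
          Finset.sum_le_sum (fun i _ => hi i)
      _ = (d:ℝ) * (1 / (ℓ:ℝ)) ^ 2 := by simp
      _ ≤ ((d:ℝ) / ℓ) ^ 2 := by
          rw [div_pow, div_pow]
          have h4 : (d:ℝ) ≤ (d:ℝ)^2 := by
            rcases Nat.eq_zero_or_pos d with h0 | hpos
            · simp [h0]
            · have : (1:ℝ) ≤ d := by exact_mod_cast hpos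
              nlinarith
          have h5 : (0:ℝ) < (ℓ:ℝ)^2 := by positivity
          rw [one_pow, mul_one_div]
          exact div_le_div_of_nonneg_right h4 h5.le
  exact (sq_le_sq₀ (norm_nonneg _) (by positivity)).1 h3

lemma cell_mem {d ℓ : ℕ} (R₀ : ℕ) {x : EuclideanSpace ℝ (Fin d)} (h : ‖x‖ ≤ R₀) :
    cellFn d ℓ x ∈ Fintype.piFinset (fun _ : Fin d => Finset.Icc (-((ℓ:ℤ) * R₀)) ((ℓ:ℤ) * R₀)) := by
  rw [Fintype.mem_piFinset]
  intro i
  have h1 : |x i| ≤ R₀ := by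
    have := PiLp.norm_apply_le x i
    rw [Real.norm_eq_abs] at this
    linarith
  obtain ⟨h2, h3⟩ := abs_le.1 h1
  have hℓ : (0:ℝ) ≤ ℓ := Nat.cast_nonneg ℓ
  rw [Finset.mem_Icc]
  constructor
  · apply Int.le_floor.2
    push_cast
    nlinarith
  · apply Int.le_of_lt_add_one
    apply Int.floor_lt.2
    push_cast
    nlinarith

lemma cell_card (d ℓ R₀ : ℕ) :
    (Fintype.piFinset (fun _ : Fin d => Finset.Icc (-((ℓ:ℤ) * R₀)) ((ℓ:ℤ) * R₀))).card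
      = (2 * ℓ * R₀ + 1) ^ d := by
  rw [Fintype.card_piFinset]
  simp only [Int.card_Icc, Finset.prod_const, Finset.card_univ, Fintype.card_fin]
  congr 1
  have : (ℓ:ℤ) * R₀ + 1 - (-((ℓ:ℤ) * R₀)) = ((2 * ℓ * R₀ + 1 : ℕ) : ℤ) := by
    push_cast
    ring
  rw [this]
  exact Int.toNat_natCast _

variable {E : Type*} [NormedAddCommGroup E] [NormedSpace ℝ E]

/-- the residual property of a queue -/
def Res (q : List E) (c : E) (η : ℝ) : Prop :=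
  ∀ s, s <:+: q → ‖s.sum - (s.length:ℝ) • c‖ ≤ η

lemma Res.take {q : List E} {c : E} {η : ℝ} (h : Res q c η) (n : ℕ) : Res (q.take n) c η :=
  fun s hs => h s (hs.trans (List.take_prefix n q).isInfix)

lemma Res.drop {q : List E} {c : E} {η : ℝ} (h : Res q c η) (n : ℕ) : Res (q.drop n) c η :=
  fun s hs => h s (hs.trans (List.drop_suffix n q).isInfix)

lemma res_of_prefix {q : List E} {c : E} {η : ℝ}
    (h : ∀ k, ‖(q.take k).sum - ((q.take k).length:ℝ) • c‖ ≤ η) : Res q c (2 * η) := by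
  rintro s ⟨l₁, l₃, rfl⟩
  have h1 := h l₁.length
  have h2 := h (l₁.length + s.length)
  have e1 : (l₁ ++ s ++ l₃).take l₁.length = l₁ := by
    rw [List.append_assoc, List.take_left']
    rfl
  have e2 : (l₁ ++ s ++ l₃).take (l₁.length + s.length) = l₁ ++ s := by
    rw [List.take_left']
    simp
  rw [e1] at h1
  rw [e2] at h2
  have e3 : s.sum - (s.length:ℝ) • c
      = ((l₁ ++ s).sum - (((l₁ ++ s).length : ℕ):ℝ) • c) - (l₁.sum - (l₁.length:ℝ) • c) := by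
    simp only [List.sum_append, List.length_append]
    push_cast
    rw [add_smul]
    abel
  rw [e3]
  calc _ ≤ ‖(l₁ ++ s).sum - (((l₁ ++ s).length : ℕ):ℝ) • c‖ + ‖l₁.sum - (l₁.length:ℝ) • c‖ :=
        norm_sub_le _ _
    _ ≤ 2 * η := by linarith

/-- ordering blocks by a bound for the list of their sums -/
lemma order_blocks {d : ℕ} (blocks : List (List (EuclideanSpace ℝ (Fin d)))) (m : ℕ) (T R : ℝ)
    (hR : 0 ≤ R) (hOB : OrderBound d m T) (hm : blocks.length ≤ m)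
    (hsum : ∀ b ∈ blocks, ‖b.sum‖ ≤ 1) (h0 : blocks.flatten.sum = 0)
    (hint : ∀ b ∈ blocks, ∀ j, ‖(b.take j).sum‖ ≤ R) :
    ∃ l' : List (EuclideanSpace ℝ (Fin d)), l'.Perm blocks.flatten ∧
      ∀ k, ‖(l'.take k).sum‖ ≤ T + R := by
  obtain ⟨l', hperm, hpref⟩ := hOB (blocks.map List.sum) (by simpa using hm)
    (by
      intro v hv
      obtain ⟨b, hb, rfl⟩ := List.mem_map.1 hv
      exact hsum b hb)
    (by rw [← List.sum_flatten]; exact h0)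
  obtain ⟨bs, hbs, hmap⟩ := exists_perm_map _ blocks l' hperm
  refine ⟨bs.flatten, hbs.flatten, ?_⟩
  intro k
  have := prefix_concat bs 0 T R hR (by
      intro i
      rw [hmap, zero_add]
      exact hpref i)
    (fun b hb => hint b (hbs.subset hb)) k
  simpa using this

/-- a section yields few good blocks -/
lemma section_blocks {κ : Type*} [DecidableEq κ] {d : ℕ} (hd : 1 ≤ d) (β : ℝ) (hβ : 0 ≤ β) (R₀ : ℕ)
    (hR₀ : (5 + 4 * β) * Real.sqrt ((d:ℝ) + 1) + 1/4 + ((d:ℝ) + 1) ≤ R₀)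
    (hOB : ∀ r, 1 ≤ r → r ≤ d + 1 → OrderBound r (20 * r * 103 ^ r) (β * Real.sqrt r))
    (I : Finset κ) (hI : I.card ≤ d + 1) (c : κ → EuclideanSpace ℝ (Fin d))
    (hc : ∀ i ∈ I, ‖c i‖ ≤ 1) (y : κ → ℕ) (hy : ∀ i ∈ I, 1 ≤ y i)
    (q : κ → List (EuclideanSpace ℝ (Fin d))) (hlen : ∀ i ∈ I, (q i).length = y i)
    (hunit : ∀ i ∈ I, ∀ v ∈ q i, ‖v‖ ≤ 1) (η : ℝ) (hη0 : 0 ≤ η) (hη : ((d:ℝ) + 1) * η ≤ 1/4)
    (hres : ∀ i ∈ I, Res (q i) (c i) η) (he : ‖∑ i ∈ I, (y i : ℝ) • c i‖ ≤ (d:ℝ) + 1) :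
    ∃ blocks : List (List (EuclideanSpace ℝ (Fin d))),
      (blocks.flatten : Multiset (EuclideanSpace ℝ (Fin d))) = ∑ i ∈ I, ((q i : List _) : Multiset _) ∧
      blocks.length ≤ 2 * (2 * (2 * d) * R₀ + 1) ^ d ∧
      ∀ b ∈ blocks, ‖b.sum‖ ≤ 1 ∧
        ∀ j, ‖(b.take j).sum‖ ≤ 4 * ((5 + 4 * β) * Real.sqrt ((d:ℝ) + 1) + 1/4) + 1 := by
  obtain ⟨W, τ, h1, h2, h3, h4⟩ := section_word β hβ I c hc y hy
    (fun r hr1 hr2 => hOB r hr1 (hr2.trans hI)) q hlen η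
    (fun i hi k => hres i hi _ (List.take_prefix k (q i)).isInfix)
  set D : ℝ := (5 + 4 * β) * Real.sqrt ((d:ℝ) + 1) + 1/4 with hD
  set e := ∑ i ∈ I, (y i : ℝ) • c i with he'
  have hIcast : (I.card : ℝ) ≤ (d:ℝ) + 1 := by exact_mod_cast hI
  have hnear : ∀ k ≤ W.length, ‖(W.take k).sum - τ k • e‖ ≤ D := by
    intro k hk
    refine (h4 k hk).trans ?_
    have h5 : Real.sqrt I.card ≤ Real.sqrt ((d:ℝ) + 1) := Real.sqrt_le_sqrt hIcast
    have h6 : (I.card : ℝ) * η ≤ 1/4 := by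
      refine le_trans ?_ hη
      exact mul_le_mul_of_nonneg_right hIcast hη0
    have h7 : (5 + 4 * β) * Real.sqrt I.card ≤ (5 + 4 * β) * Real.sqrt ((d:ℝ) + 1) :=
      mul_le_mul_of_nonneg_left h5 (by positivity)
    rw [hD]
    linarith
  have hunitW : ∀ v ∈ W, ‖v‖ ≤ 1 := by
    intro v hv
    have h5 : v ∈ (W : Multiset (EuclideanSpace ℝ (Fin d))) := by simpa using hv
    rw [h1, Multiset.mem_sum] at h5
    obtain ⟨i, hi, h6⟩ := h5
    exact hunit i hi v (by simpa using h6)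
  have hdpos : (0:ℝ) < d := by exact_mod_cast hd
  have hℓ : 0 < 2 * d := by omega
  have hcell : ∀ x x' : EuclideanSpace ℝ (Fin d), cellFn d (2 * d) x = cellFn d (2 * d) x' →
      ‖x - x'‖ ≤ 1/2 := by
    intro x x' h
    refine (cell_close hℓ h).trans (le_of_eq ?_)
    push_cast
    field_simp
  obtain ⟨blocks, hfl, hlength, hgood⟩ := cut_blocks (cellFn d (2 * d)) hcell W τ e D h3 hnear hunitW
    _ (Fintype.piFinset (fun _ : Fin d => Finset.Icc (-(((2 * d : ℕ):ℤ) * R₀)) (((2 * d : ℕ):ℤ) * R₀)))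
    0 rfl (Nat.zero_le _) (by
      intro k _ hk
      apply cell_mem
      obtain ⟨h5, h6⟩ := h2 k hk
      have h7 := hnear k hk
      have h8 : ‖τ k • e‖ ≤ (d:ℝ) + 1 := by
        rw [norm_smul, Real.norm_eq_abs, abs_of_nonneg h5]
        have := norm_nonneg e
        nlinarith
      have h9 : ‖(W.take k).sum‖ ≤ ‖(W.take k).sum - τ k • e‖ + ‖τ k • e‖ := by
        have := norm_add_le ((W.take k).sum - τ k • e) (τ k • e)
        simpa using this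
      rw [hD] at h7
      linarith)
  rw [cell_card] at hlength
  refine ⟨blocks, ?_, hlength, hgood⟩
  rw [hfl, List.drop_zero]
  exact h1

end Vale.Agent.Lib.P262
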