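import Vale.Agent.Lib.P262.Defs

open Finset

namespace Vale.Agent.Lib.P262

variable {κ : Type*} [DecidableEq κ] {d : ℕ}

/-- a positive relation with support at most `d + 1` inside the support of a given one -/
lemma exists_circuit (c : κ → EuclideanSpace ℝ (Fin d)) :
    ∀ (n : ℕ) (S : Finset κ) (t : κ → ℝ), S.card = n → S.Nonempty → (∀ γ ∈ S, 0 < t γ) →
      ∑ γ ∈ S, t γ • c γ = 0 →
      ∃ (S' : Finset κ) (t' : κ → ℝ), S' ⊆ S ∧ S'.Nonempty ∧ S'.card ≤ d + 1 ∧
        (∀ γ ∈ S', 0 < t' γ) ∧ ∑ γ ∈ S', t' γ • c γ = 0 := by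
  intro n
  induction n using Nat.strong_induction_on with
  | _ n ih =>
    intro S t hcard hne hpos hsum
    by_cases hle : S.card ≤ d + 1
    · exact ⟨S, t, Finset.Subset.refl _, hne, hle, hpos, hsum⟩
    · push Not at hle
      obtain ⟨γ₀, hγ₀⟩ := hne
      set S₀ := S.erase γ₀ with hS₀
      have hcardS₀ : d < S₀.card := by
        rw [hS₀, Finset.card_erase_of_mem hγ₀]
        omega
      have hnotli : ¬ LinearIndependent ℝ (fun i : S₀ => c i) := by
        intro hli
        have := hli.fintype_card_le_finrank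
        simp only [Fintype.card_coe, finrank_euclideanSpace_fin] at this
        omega
      rw [Fintype.not_linearIndependent_iff] at hnotli
      obtain ⟨w, hw0, i₀, hi₀⟩ := hnotli
      -- extend, with a negative coordinate
      have hneg : ∃ W : κ → ℝ, (∀ γ, γ ∉ S₀ → W γ = 0) ∧ ∑ γ ∈ S, W γ • c γ = 0 ∧
          ∃ γ₁ ∈ S₀, W γ₁ < 0 := by
        set W₀ : κ → ℝ := fun γ => if h : γ ∈ S₀ then w ⟨γ, h⟩ else 0 with hW₀
        have hout : ∀ γ, γ ∉ S₀ → W₀ γ = 0 := fun γ hγ => by simp [hW₀, hγ]
        have hsumW₀ : ∑ γ ∈ S, W₀ γ • c γ = 0 := by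
          rw [← Finset.add_sum_erase S _ hγ₀, hout γ₀ (by simp [hS₀]), zero_smul, zero_add,
            ← hS₀, ← Finset.sum_coe_sort S₀, ← hw0]
          apply Finset.sum_congr rfl
          intro i _
          simp [hW₀]
        have hi₁ : W₀ i₀ ≠ 0 := by simpa [hW₀] using hi₀
        rcases lt_or_gt_of_ne hi₁ with h | h
        · exact ⟨W₀, hout, hsumW₀, i₀, i₀.2, h⟩
        · refine ⟨fun γ => - W₀ γ, fun γ hγ => by simp [hout γ hγ], ?_, i₀, i₀.2, by simpa using h⟩
          simp only [neg_smul, Finset.sum_neg_distrib, hsumW₀, neg_zero]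
      obtain ⟨W, hWout, hWsum, γ₁, hγ₁, hγ₁neg⟩ := hneg
      set N := S.filter (fun γ => W γ < 0) with hN
      have hNne : N.Nonempty :=
        ⟨γ₁, Finset.mem_filter.2 ⟨Finset.mem_of_mem_erase hγ₁, hγ₁neg⟩⟩
      obtain ⟨γ₂, hγ₂, hmin⟩ := Finset.exists_min_image N (fun γ => t γ / (- W γ)) hNne
      obtain ⟨hγ₂S, hγ₂neg⟩ := Finset.mem_filter.1 hγ₂
      set a := t γ₂ / (- W γ₂) with ha
      have hapos : 0 < a := div_pos (hpos γ₂ hγ₂S) (by linarith)
      set t₁ : κ → ℝ := fun γ => t γ + a * W γ with ht₁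
      have ht₁nn : ∀ γ ∈ S, 0 ≤ t₁ γ := by
        intro γ hγ
        simp only [ht₁]
        by_cases hw : W γ < 0
        · have h1 := hmin γ (Finset.mem_filter.2 ⟨hγ, hw⟩)
          have hw' : 0 < - W γ := by linarith
          have h2 : a * (- W γ) ≤ t γ := by
            calc a * (- W γ) ≤ t γ / (- W γ) * (- W γ) := mul_le_mul_of_nonneg_right h1 hw'.le
              _ = t γ := div_mul_cancel₀ _ hw'.ne'
          linarith
        · have h1 := hpos γ hγ
          have h2 : 0 ≤ a * W γ := mul_nonneg hapos.le (not_lt.1 hw)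
          linarith
      have ht₁γ₂ : t₁ γ₂ = 0 := by
        simp only [ht₁, ha]
        have : W γ₂ ≠ 0 := hγ₂neg.ne
        field_simp
        ring
      have ht₁γ₀ : t₁ γ₀ = t γ₀ := by
        simp [ht₁, hWout γ₀ (by simp [hS₀])]
      set S₁ := S.filter (fun γ => 0 < t₁ γ) with hS₁
      have hS₁sub : S₁ ⊆ S := Finset.filter_subset _ _
      have hS₁lt : S₁.card < n := by
        rw [← hcard]
        apply Finset.card_lt_card
        refine ⟨hS₁sub, ?_⟩
        intro h
        have := h hγ₂S
        have h2 := (Finset.mem_filter.1 this).2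
        linarith
      have hS₁ne : S₁.Nonempty :=
        ⟨γ₀, Finset.mem_filter.2 ⟨hγ₀, by rw [ht₁γ₀]; exact hpos γ₀ hγ₀⟩⟩
      have hsum₁ : ∑ γ ∈ S₁, t₁ γ • c γ = 0 := by
        have h1 : ∑ γ ∈ S, t₁ γ • c γ = 0 := by
          simp only [ht₁, add_smul, Finset.sum_add_distrib, mul_smul]
          rw [hsum, ← Finset.smul_sum, hWsum, smul_zero, add_zero]
        rw [← h1]
        apply Finset.sum_subset hS₁sub
        intro γ hγ hnot
        have h2 : t₁ γ = 0 := by
          have h3 := ht₁nn γ hγ
          by_contra hne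
          exact hnot (Finset.mem_filter.2 ⟨hγ, lt_of_le_of_ne h3 (Ne.symm hne)⟩)
        simp [h2]
      obtain ⟨S', t', h1, h2, h3, h4, h5⟩ := ih _ hS₁lt S₁ t₁ rfl hS₁ne
        (fun γ hγ => (Finset.mem_filter.1 hγ).2) hsum₁
      exact ⟨S', t', h1.trans hS₁sub, h2, h3, h4, h5⟩

/-- conic Caratheodory: a nonnegative relation is a sum of few relations of small support -/
lemma exists_peel (c : κ → EuclideanSpace ℝ (Fin d)) :
    ∀ (n : ℕ) (S : Finset κ) (v : κ → ℝ), S.card = n → (∀ γ ∈ S, 0 < v γ) →
      ∑ γ ∈ S, v γ • c γ = 0 →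
      ∃ ps : List (κ → ℝ), ps.length ≤ n ∧
        (∀ p ∈ ps, (∀ γ, 0 ≤ p γ) ∧ (∀ γ, γ ∉ S → p γ = 0) ∧
          (S.filter (fun γ => 0 < p γ)).card ≤ d + 1 ∧ ∑ γ ∈ S, p γ • c γ = 0) ∧
        ∀ γ ∈ S, (ps.map (fun p => p γ)).sum = v γ := by
  intro n
  induction n using Nat.strong_induction_on with
  | _ n ih =>
    intro S v hcard hpos hsum
    rcases Finset.eq_empty_or_nonempty S with hS | hne
    · subst hS
      exact ⟨[], by simp, by simp, by simp⟩
    · obtain ⟨S', t', hsub, hne', hcard', hpos', hsum'⟩ := exists_circuit c _ S v rfl hne hpos hsum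
      obtain ⟨γ₁, hγ₁, hmin⟩ := Finset.exists_min_image S' (fun γ => v γ / t' γ) hne'
      set a := v γ₁ / t' γ₁ with ha
      have hapos : 0 < a := div_pos (hpos γ₁ (hsub hγ₁)) (hpos' γ₁ hγ₁)
      set p : κ → ℝ := fun γ => if γ ∈ S' then a * t' γ else 0 with hp
      set v₁ : κ → ℝ := fun γ => v γ - p γ with hv₁
      have hv₁nn : ∀ γ ∈ S, 0 ≤ v₁ γ := by
        intro γ hγ
        simp only [hv₁, hp]
        by_cases hS' : γ ∈ S'
        · simp only [hS', if_true]
          have h1 := hmin γ hS'
          have h2 := hpos' γ hS'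
          have h3 : a * t' γ ≤ v γ := by
            calc a * t' γ ≤ v γ / t' γ * t' γ := mul_le_mul_of_nonneg_right h1 h2.le
              _ = v γ := div_mul_cancel₀ _ h2.ne'
          linarith
        · simp only [hS', if_false, sub_zero]
          exact (hpos γ hγ).le
      have hv₁γ₁ : v₁ γ₁ = 0 := by
        simp only [hv₁, hp, hγ₁, if_true, ha]
        have : t' γ₁ ≠ 0 := (hpos' γ₁ hγ₁).ne'
        field_simp
        ring
      set S₁ := S.filter (fun γ => 0 < v₁ γ) with hS₁
      have hS₁sub : S₁ ⊆ S := Finset.filter_subset _ _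
      have hS₁lt : S₁.card < n := by
        rw [← hcard]
        apply Finset.card_lt_card
        refine ⟨hS₁sub, ?_⟩
        intro h
        have := h (hsub hγ₁)
        have h2 := (Finset.mem_filter.1 this).2
        linarith
      have hpsum : ∑ γ ∈ S, p γ • c γ = 0 := by
        have h1 : ∑ γ ∈ S, p γ • c γ = ∑ γ ∈ S', p γ • c γ := by
          symm
          apply Finset.sum_subset hsub
          intro γ _ hγ
          simp [hp, hγ]
        rw [h1]
        have h2 : ∑ γ ∈ S', p γ • c γ = a • ∑ γ ∈ S', t' γ • c γ := by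
          rw [Finset.smul_sum]
          apply Finset.sum_congr rfl
          intro γ hγ
          simp [hp, hγ, mul_smul]
        rw [h2, hsum', smul_zero]
      have hsum₁ : ∑ γ ∈ S₁, v₁ γ • c γ = 0 := by
        have h1 : ∑ γ ∈ S, v₁ γ • c γ = 0 := by
          simp only [hv₁, sub_smul, Finset.sum_sub_distrib]
          rw [hsum, hpsum, sub_zero]
        rw [← h1]
        apply Finset.sum_subset hS₁sub
        intro γ hγ hnot
        have h2 : v₁ γ = 0 := by
          have h3 := hv₁nn γ hγ
          by_contra hne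
          exact hnot (Finset.mem_filter.2 ⟨hγ, lt_of_le_of_ne h3 (Ne.symm hne)⟩)
        simp [h2]
      obtain ⟨ps, h1, h2, h3⟩ := ih _ hS₁lt S₁ v₁ rfl (fun γ hγ => (Finset.mem_filter.1 hγ).2) hsum₁
      refine ⟨p :: ps, ?_, ?_, ?_⟩
      · simp only [List.length_cons]
        omega
      · intro x hx
        rcases List.mem_cons.1 hx with rfl | hx
        · refine ⟨?_, ?_, ?_, hpsum⟩
          · intro γ
            simp only [hp]
            split_ifs with h
            · exact mul_nonneg hapos.le (hpos' γ h).le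
            · exact le_refl _
          · intro γ hγ
            have : γ ∉ S' := fun h => hγ (hsub h)
            simp [hp, this]
          · refine le_trans (Finset.card_le_card ?_) hcard'
            intro γ hγ
            obtain ⟨_, h4⟩ := Finset.mem_filter.1 hγ
            by_contra hnot
            simp [hp, hnot] at h4
        · obtain ⟨h4, h5, h6, h7⟩ := h2 x hx
          refine ⟨h4, fun γ hγ => h5 γ (fun h => hγ (hS₁sub h)), ?_, ?_⟩
          · refine le_trans (Finset.card_le_card ?_) h6
            intro γ hγ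
            obtain ⟨h8, h9⟩ := Finset.mem_filter.1 hγ
            refine Finset.mem_filter.2 ⟨?_, h9⟩
            by_contra hnot
            have := h5 γ hnot
            linarith
          · rw [← h7]
            symm
            apply Finset.sum_subset hS₁sub
            intro γ _ hγ
            simp [h5 γ hγ]
      · intro γ hγ
        simp only [List.map_cons, List.sum_cons]
        by_cases hγ₁' : γ ∈ S₁
        · rw [h3 γ hγ₁']
          simp [hv₁]
        · have hzero : (ps.map (fun q => q γ)).sum = 0 := by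
            apply List.sum_eq_zero
            intro x hx
            obtain ⟨q, hq, rfl⟩ := List.mem_map.1 hx
            exact (h2 q hq).2.1 γ hγ₁'
          rw [hzero, add_zero]
          have h4 : v₁ γ = 0 := by
            have h5 := hv₁nn γ hγ
            by_contra hne
            exact hγ₁' (Finset.mem_filter.2 ⟨hγ, lt_of_le_of_ne h5 (Ne.symm hne)⟩)
          simp only [hv₁] at h4
          linarith

end Vale.Agent.Lib.P262
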