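import Vale.Agent.Lib.P262.Word

open Finset

namespace Vale.Agent.Lib.P262

variable {E : Type*} [NormedAddCommGroup E] [NormedSpace ℝ E]

omit [NormedSpace ℝ E] in
lemma sum_take_drop (W : List E) (a j : ℕ) :
    ((W.drop a).take j).sum = (W.take (a + j)).sum - (W.take a).sum := by
  rw [List.take_add, List.sum_append]
  abel

/-- the excursion estimate inside a block between two close points of a near-segment path -/
lemma excursion (W : List E) (τ : ℕ → ℝ) (e : E) (D : ℝ)
    (hmono : ∀ k < W.length, τ k ≤ τ (k+1))
    (hnear : ∀ k ≤ W.length, ‖(W.take k).sum - τ k • e‖ ≤ D)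
    {a c b : ℕ} (hac : a ≤ c) (hcb : c ≤ b) (hb : b ≤ W.length)
    (hclose : ‖(W.take b).sum - (W.take a).sum‖ ≤ 1/2) :
    ‖(W.take c).sum - (W.take a).sum‖ ≤ 4 * D + 1/2 := by
  have hmono' : ∀ s t, s ≤ t → t ≤ W.length → τ s ≤ τ t := by
    intro s t hst
    induction t, hst using Nat.le_induction with
    | base => intro _; exact le_refl _
    | succ t hst ih =>
      intro ht
      exact (ih (by omega)).trans (hmono t (by omega))
  have h1 := hnear a (by omega)
  have h2 := hnear c (by omega)
  have h3 := hnear b hb
  have hτ1 : τ a ≤ τ c := hmono' a c hac (by omega)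
  have hτ2 : τ c ≤ τ b := hmono' c b hcb hb
  have h4 : ‖(τ b - τ a) • e‖ ≤ 1/2 + 2 * D := by
    have e1 : (τ b - τ a) • e = ((W.take b).sum - (W.take a).sum)
        - ((W.take b).sum - τ b • e) + ((W.take a).sum - τ a • e) := by
      rw [sub_smul]
      abel
    rw [e1]
    calc _ ≤ ‖((W.take b).sum - (W.take a).sum) - ((W.take b).sum - τ b • e)‖
          + ‖(W.take a).sum - τ a • e‖ := norm_add_le _ _
      _ ≤ ‖(W.take b).sum - (W.take a).sum‖ + ‖(W.take b).sum - τ b • e‖
          + ‖(W.take a).sum - τ a • e‖ := by gcongr; exact norm_sub_le _ _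
      _ ≤ 1/2 + 2 * D := by linarith
  have h5 : ‖(τ c - τ a) • e‖ ≤ 1/2 + 2 * D := by
    refine le_trans ?_ h4
    rw [norm_smul, norm_smul, Real.norm_eq_abs, Real.norm_eq_abs,
      abs_of_nonneg (by linarith), abs_of_nonneg (by linarith)]
    exact mul_le_mul_of_nonneg_right (by linarith) (norm_nonneg _)
  have e2 : (W.take c).sum - (W.take a).sum = ((W.take c).sum - τ c • e)
      - ((W.take a).sum - τ a • e) + (τ c - τ a) • e := by
    rw [sub_smul]
    abel
  rw [e2]
  calc _ ≤ ‖((W.take c).sum - τ c • e) - ((W.take a).sum - τ a • e)‖ + ‖(τ c - τ a) • e‖ :=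
        norm_add_le _ _
    _ ≤ ‖(W.take c).sum - τ c • e‖ + ‖(W.take a).sum - τ a • e‖ + ‖(τ c - τ a) • e‖ := by
        gcongr; exact norm_sub_le _ _
    _ ≤ 4 * D + 1/2 := by linarith

/-- cutting a near-segment list into few blocks of small sum and small internal excursion -/
lemma cut_blocks {κ : Type*} [DecidableEq κ] (cell : E → κ)
    (hcell : ∀ x x', cell x = cell x' → ‖x - x'‖ ≤ 1/2)
    (W : List E) (τ : ℕ → ℝ) (e : E) (D : ℝ)
    (hmono : ∀ k < W.length, τ k ≤ τ (k+1))
    (hnear : ∀ k ≤ W.length, ‖(W.take k).sum - τ k • e‖ ≤ D)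
    (hunit : ∀ v ∈ W, ‖v‖ ≤ 1) :
    ∀ (n : ℕ) (𝒟 : Finset κ) (a : ℕ), 𝒟.card = n → a ≤ W.length →
      (∀ k, a ≤ k → k ≤ W.length → cell (W.take k).sum ∈ 𝒟) →
      ∃ blocks : List (List E), blocks.flatten = W.drop a ∧ blocks.length ≤ 2 * n ∧
        ∀ b ∈ blocks, ‖b.sum‖ ≤ 1 ∧ ∀ j, ‖(b.take j).sum‖ ≤ 4 * D + 1 := by
  intro n
  have hD : 0 ≤ D := (norm_nonneg _).trans (hnear 0 (by omega))
  induction n with
  | zero =>
    intro 𝒟 a hcard ha hmem
    rw [Finset.card_eq_zero] at hcard
    subst hcard
    have : a = W.length := by
      by_contra hne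
      exact Finset.notMem_empty _ (hmem a (le_refl _) ha)
    subst this
    exact ⟨[], by simp, by simp, by simp⟩
  | succ n ih =>
    intro 𝒟 a hcard ha hmem
    by_cases haW : a = W.length
    · subst haW
      exact ⟨[], by simp, by simp, by simp⟩
    · have halt : a < W.length := by omega
      set P : ℕ → Prop := fun k => cell (W.take k).sum = cell (W.take a).sum with hP
      set b := Nat.findGreatest P W.length with hb
      have hPa : P a := rfl
      have hab : a ≤ b := Nat.le_findGreatest ha hPa
      have hPb : P b := Nat.findGreatest_spec ha hPa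
      have hbW : b ≤ W.length := Nat.findGreatest_le _
      have hafter : ∀ k, b < k → k ≤ W.length → ¬ P k := fun k h1 h2 =>
        Nat.findGreatest_is_greatest h1 h2
      set B₁ := (W.drop a).take (b - a) with hB₁
      have hclose : ‖(W.take b).sum - (W.take a).sum‖ ≤ 1/2 := hcell _ _ hPb
      have hB₁good : ‖B₁.sum‖ ≤ 1 ∧ ∀ j, ‖(B₁.take j).sum‖ ≤ 4 * D + 1 := by
        constructor
        · rw [hB₁, sum_take_drop, Nat.add_sub_cancel' hab]
          linarith
        · intro j
          rw [hB₁, List.take_take, sum_take_drop]
          have h1 := excursion W τ e D hmono hnear (a := a) (c := a + min j (b - a)) (b := b)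
            (by omega) (by omega) hbW hclose
          linarith
      by_cases hbeq : b = W.length
      · refine ⟨[B₁], ?_, by simp only [List.length_singleton]; omega, ?_⟩
        · simp only [List.flatten_cons, List.flatten_nil, List.append_nil, hB₁]
          apply List.take_of_length_le
          simp only [List.length_drop]
          omega
        · intro x hx
          have : x = B₁ := by simpa using hx
          rw [this]
          exact hB₁good
      · have hblt : b < W.length := by omega
        set v := W[b] with hv
        set 𝒟' := 𝒟.erase (cell (W.take a).sum) with h𝒟'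
        have hmema : cell (W.take a).sum ∈ 𝒟 := hmem a (le_refl _) ha
        have hcard' : 𝒟'.card = n := by
          rw [h𝒟', Finset.card_erase_of_mem hmema, hcard]
          rfl
        obtain ⟨blocks, hfl, hlen, hgood⟩ := ih 𝒟' (b+1) hcard' (by omega) (by
          intro k hk1 hk2
          refine Finset.mem_erase.2 ⟨?_, hmem k (by omega) hk2⟩
          exact hafter k (by omega) hk2)
        refine ⟨B₁ :: [v] :: blocks, ?_, ?_, ?_⟩
        · simp only [List.flatten_cons, hfl, hB₁]
          have e1 : W.drop a = (W.drop a).take (b - a) ++ (W.drop a).drop (b - a) :=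
            (List.take_append_drop _ _).symm
          have e2 : (W.drop a).drop (b - a) = W.drop b := by
            rw [List.drop_drop, Nat.add_sub_cancel' hab]
          conv_rhs => rw [e1, e2, List.drop_eq_getElem_cons hblt]
          simp [hv]
        · simp only [List.length_cons]
          omega
        · intro x hx
          rcases List.mem_cons.1 hx with rfl | hx
          · exact hB₁good
          · rcases List.mem_cons.1 hx with rfl | hx
            · have hvn : ‖v‖ ≤ 1 := hunit v (List.getElem_mem _)
              constructor
              · simpa using hvn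
              · intro j
                rcases j with _ | j
                · simp
                  linarith
                · simp
                  linarith
            · exact hgood x hx

omit [NormedSpace ℝ E] in
/-- concatenation of blocks along an ordering of the block sums -/
lemma prefix_concat (bs : List (List E)) (s : E) (T R : ℝ) (hR : 0 ≤ R)
    (hs : ∀ i, ‖s + ((bs.map List.sum).take i).sum‖ ≤ T)
    (hint : ∀ b ∈ bs, ∀ j, ‖(b.take j).sum‖ ≤ R) :
    ∀ k, ‖s + (bs.flatten.take k).sum‖ ≤ T + R := by
  induction bs generalizing s with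
  | nil =>
    intro k
    have := hs 0
    simp at this ⊢
    linarith
  | cons b bs ih =>
    intro k
    simp only [List.flatten_cons]
    have h0 := hs 0
    simp only [List.take_zero, List.sum_nil, add_zero] at h0
    by_cases hk : k ≤ b.length
    · rw [List.take_append_of_le_length hk]
      have h1 := hint b (by simp) k
      calc _ ≤ ‖s‖ + ‖(b.take k).sum‖ := norm_add_le _ _
        _ ≤ T + R := by linarith
    · obtain ⟨k', rfl⟩ : ∃ k', k = b.length + k' := ⟨k - b.length, by omega⟩
      rw [List.take_length_add_append, List.sum_append, ← add_assoc]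
      apply ih (s + b.sum)
      · intro i
        have := hs (i + 1)
        simp only [List.map_cons, List.take_succ_cons, List.sum_cons] at this
        rwa [← add_assoc] at this
      · intro x hx
        exact hint x (by simp [hx])

end Vale.Agent.Lib.P262
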