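import Mathlib

namespace Vale.Agent.Lib.P262

/-- `OrderBound d N R`: every zero-sum list of at most `N` vectors of the closed unit ball of
Euclidean `ℝ^d` has a rearrangement all of whose prefix sums have norm at most `R`. -/
def OrderBound (d N : ℕ) (R : ℝ) : Prop :=
  ∀ l : List (EuclideanSpace ℝ (Fin d)), l.length ≤ N → (∀ v ∈ l, ‖v‖ ≤ 1) → l.sum = 0 →
    ∃ l' : List (EuclideanSpace ℝ (Fin d)), l'.Perm l ∧ ∀ k : ℕ, ‖(l'.take k).sum‖ ≤ R

end Vale.Agent.Lib.P262
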