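import Vale.Agent.Lib.P262.Path

open Finset

namespace Vale.Agent.Lib.P262

variable {ι : Type*} [DecidableEq ι] {G : Type*} [NormedAddCommGroup G] [InnerProductSpace ℝ G]

lemma fine_dev
    (I J : Finset ι) (hJ : J ⊆ I) (g : ι → G) (y : ι → ℕ)
    (X : Submodule ℝ G) [X.HasOrthogonalProjection] (hgX : ∀ j ∈ J, g j ∈ X)
    (Qo L K T' : ℕ) (hQo : 0 < Qo) (hL : 0 < L) (hK : K = Qo * L) (hT' : 0 < T')
    (xold : ℕ → ι → ℕ) (m : ℕ → ι → ℕ) (ord : ℕ → List ι)
    (A T : ℝ)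
    (hnorm : ∀ j ∈ J, ‖g j‖ ≤ 2) (hanorm : ∀ i ∈ I \ J, ‖X.starProjection (g i)‖ ≤ 2)
    (hold_dev : ∀ t < Qo, ∀ τ : ℝ, (t:ℝ)/Qo ≤ τ → τ ≤ ((t:ℝ)+1)/Qo →
      ‖∑ i ∈ I \ J, ((xold t i : ℝ) - τ * y i) • (g i - X.starProjection (g i))‖^2
        ≤ (I \ J).card * A^2)
    (hold_mono : ∀ t < Qo, ∀ i ∈ I \ J, xold t i ≤ xold (t+1) i)
    (hold_unit : ∀ t < Qo, ∑ i ∈ I \ J, xold (t+1) i ≤ ∑ i ∈ I \ J, xold t i + 1)
    (hD : ∀ k ≤ K, ‖∑ j ∈ J, ((m k j : ℝ) - (k/K) * y j) • g j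
        + ∑ i ∈ I \ J, ((xold (k/L) i : ℝ) - (k/K) * y i) • X.starProjection (g i)‖^2
          ≤ (∑ j ∈ J, ‖g j‖^2)/4)
    (hord_mem : ∀ k < K, ∀ a ∈ ord k, a ∈ J)
    (hord_count : ∀ k < K, ∀ j ∈ J, (ord k).count j + m k j = m (k+1) j)
    (hord_len : ∀ k < K, 2 * (ord k).length ≤ T')
    (hord_dev : ∀ k < K, ∀ q : ℕ, q ≤ (ord k).length →
        ‖(((ord k).take q).map g).sum
          - ((q:ℝ) / (ord k).length) • ∑ j ∈ J, (((ord k).count j : ℕ) :ℝ) • g j‖ ≤ 4 * T)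
    (hA0 : 0 ≤ A)
    (hA : Real.sqrt J.card + 4 * T + 4 ≤ Real.sqrt J.card * A) :
    ∀ t < K * T', ∀ τ : ℝ, (t:ℝ)/((K * T' : ℕ):ℝ) ≤ τ → τ ≤ ((t:ℝ)+1)/((K * T' : ℕ):ℝ) →
      ‖∑ i ∈ I, ((finePath J m ord xold L T' t i : ℝ) - τ * y i) • g i‖^2 ≤ I.card * A^2 := by
  intro t ht τ h1 h2
  obtain ⟨k, p, hk, hp, rfl⟩ := time_cases K T' t hT' ht
  have hKpos : 0 < K := by rw [hK]; positivity
  have hK' : (0:ℝ) < K := by exact_mod_cast hKpos
  have hT'' : (0:ℝ) < T' := by exact_mod_cast hT'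
  have hL' : (0:ℝ) < L := by exact_mod_cast hL
  have hQo' : (0:ℝ) < Qo := by exact_mod_cast hQo
  have hKcast : (K:ℝ) = Qo * L := by rw [hK]; push_cast; ring
  set s : ℝ := τ * K - k with hs
  have h1' : (k:ℝ) * T' + p ≤ τ * (K * T') := by
    push_cast at h1
    rwa [div_le_iff₀ (by positivity)] at h1
  have h2' : τ * (K * T') ≤ (k:ℝ) * T' + p + 1 := by
    push_cast at h2
    rwa [le_div_iff₀ (by positivity)] at h2
  have hsT : s * T' = τ * (K * T') - k * T' := by rw [hs]; ring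
  have hs1 : (p:ℝ) / T' ≤ s := by
    rw [div_le_iff₀ hT'']
    linarith
  have hs2 : s ≤ ((p:ℝ) + 1) / T' := by
    rw [le_div_iff₀ hT'']
    linarith
  have hp' : (p:ℝ) + 1 ≤ T' := by exact_mod_cast hp
  have hs0 : 0 ≤ s := le_trans (by positivity) hs1
  have hs1' : s ≤ 1 := hs2.trans (by rw [div_le_one hT'']; exact hp')
  -- old time
  set t' := k / L with ht'
  have ht'lt : t' < Qo := by
    apply Nat.div_lt_of_lt_mul
    rwa [mul_comm, ← hK]
  have ht'1 : (t':ℝ) * L ≤ k := by exact_mod_cast Nat.div_mul_le_self k L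
  have ht'2 : (k:ℝ) + 1 ≤ ((t':ℝ) + 1) * L := by
    have : k < (t' + 1) * L := by
      have := Nat.lt_mul_div_succ k hL
      rw [mul_comm] at this
      exact this
    have h3 : k + 1 ≤ (t' + 1) * L := this
    exact_mod_cast h3
  have hτ1 : (t':ℝ) / Qo ≤ τ := by
    rw [div_le_iff₀ hQo']
    have h3 : (k:ℝ) ≤ τ * K := by
      have h4 : (k:ℝ) * T' ≤ τ * K * T' := by nlinarith [Nat.cast_nonneg (α := ℝ) p]
      exact le_of_mul_le_mul_right h4 hT''
    rw [hKcast] at h3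
    have h5 : (t':ℝ) * L ≤ (τ * Qo) * L := by nlinarith
    exact le_of_mul_le_mul_right h5 hL'
  have hτ2 : τ ≤ ((t':ℝ) + 1) / Qo := by
    rw [le_div_iff₀ hQo']
    have h3 : τ * K ≤ (k:ℝ) + 1 := by
      have h4 : τ * K * T' ≤ ((k:ℝ) + 1) * T' := by nlinarith
      exact le_of_mul_le_mul_right h4 hT''
    rw [hKcast] at h3
    have h5 : (τ * Qo) * L ≤ ((t':ℝ) + 1) * L := by nlinarith
    exact le_of_mul_le_mul_right h5 hL'
  -- split
  set c : ι → ℝ := fun i => (finePath J m ord xold L T' (k * T' + p) i : ℝ) - τ * y i with hc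
  have hsplit := norm_split I J hJ g c X hgX
  -- orthogonal part
  have horth : ‖∑ i ∈ I \ J, c i • (g i - X.starProjection (g i))‖^2 ≤ (I \ J).card * A^2 := by
    have e : ∑ i ∈ I \ J, c i • (g i - X.starProjection (g i))
        = ∑ i ∈ I \ J, ((xold t' i : ℝ) - τ * y i) • (g i - X.starProjection (g i)) := by
      apply Finset.sum_congr rfl
      intro i hi
      simp only [hc]
      rw [finePath_R J m ord xold L T' k p hp i (Finset.mem_sdiff.1 hi).2]
    rw [e]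
    exact hold_dev t' ht'lt τ hτ1 hτ2
  -- the part in X
  have hr4 : (∑ j ∈ J, ‖g j‖^2)/4 ≤ (J.card : ℝ) := by
    have h3 : ∑ j ∈ J, ‖g j‖^2 ≤ J.card • (4:ℝ) := by
      apply Finset.sum_le_card_nsmul
      intro j hj
      have := hnorm j hj
      have h0 := norm_nonneg (g j)
      nlinarith
    simp only [nsmul_eq_mul] at h3
    linarith
  have hDk := hD k hk.le
  have hDk' := hD (k+1) hk
  set C : G := ∑ j ∈ J, (m k j : ℝ) • g j
    + ∑ i ∈ I \ J, (xold t' i : ℝ) • X.starProjection (g i) with hC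
  set Y : G := ∑ j ∈ J, (y j : ℝ) • g j + ∑ i ∈ I \ J, (y i : ℝ) • X.starProjection (g i) with hY
  set E : G := ∑ j ∈ J, (((ord k).take (cnt p (ord k).length T')).count j : ℝ) • g j with hE
  set U : G := ∑ j ∈ J, (((ord k).count j : ℕ) : ℝ) • g j with hU
  set W : G := ∑ i ∈ I \ J, ((xold ((k+1)/L) i : ℝ) - xold t' i) • X.starProjection (g i) with hW
  have hDkE : ∑ j ∈ J, ((m k j : ℝ) - (k/K) * y j) • g j
        + ∑ i ∈ I \ J, ((xold (k/L) i : ℝ) - (k/K) * y i) • X.starProjection (g i)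
      = C - ((k:ℝ)/K) • Y := by
    have e1 := sum_coef J (fun j => (m k j : ℝ)) (fun j => (y j : ℝ)) ((k:ℝ)/K) g
    have e2 := sum_coef (I \ J) (fun i => (xold t' i : ℝ)) (fun i => (y i : ℝ)) ((k:ℝ)/K)
      (fun i => X.starProjection (g i))
    rw [e1, e2, hC, hY, smul_add]
    abel
  have hDk'E : ∑ j ∈ J, ((m (k+1) j : ℝ) - (((k+1 : ℕ):ℝ)/K) * y j) • g j
        + ∑ i ∈ I \ J, ((xold ((k+1)/L) i : ℝ) - (((k+1 : ℕ):ℝ)/K) * y i) • X.starProjection (g i)
      = C + U + W - (((k+1 : ℕ):ℝ)/K) • Y := by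
    have e1 := sum_coef J (fun j => (m (k+1) j : ℝ)) (fun j => (y j : ℝ)) (((k+1 : ℕ):ℝ)/K) g
    have e2 := sum_coef (I \ J) (fun i => (xold ((k+1)/L) i : ℝ)) (fun i => (y i : ℝ))
      (((k+1 : ℕ):ℝ)/K) (fun i => X.starProjection (g i))
    have e3 : ∑ j ∈ J, (m (k+1) j : ℝ) • g j = ∑ j ∈ J, (m k j : ℝ) • g j + U := by
      rw [hU, ← Finset.sum_add_distrib]
      apply Finset.sum_congr rfl
      intro j hj
      rw [← add_smul, ← hord_count k hk j hj]
      push_cast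
      ring_nf
    have e4 : ∑ i ∈ I \ J, (xold ((k+1)/L) i : ℝ) • X.starProjection (g i)
        = ∑ i ∈ I \ J, (xold t' i : ℝ) • X.starProjection (g i) + W := by
      rw [hW, ← Finset.sum_add_distrib]
      apply Finset.sum_congr rfl
      intro i _
      rw [← add_smul]
      ring_nf
    rw [e1, e2, e3, e4, hC, hY, smul_add]
    abel
  have hstate : ∑ j ∈ J, c j • g j + ∑ i ∈ I \ J, c i • X.starProjection (g i)
      = C + E - τ • Y := by
    have e1 : ∑ j ∈ J, c j • g j = ∑ j ∈ J, (m k j : ℝ) • g j + E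
        - τ • ∑ j ∈ J, (y j : ℝ) • g j := by
      have e11 : ∑ j ∈ J, c j • g j = ∑ j ∈ J, (((m k j : ℝ)
          + ((((ord k).take (cnt p (ord k).length T')).count j : ℕ) : ℝ)) - τ * y j) • g j := by
        apply Finset.sum_congr rfl
        intro j hj
        simp only [hc]
        rw [finePath_J J m ord xold L T' k p hp j hj]
        push_cast
        rfl
      rw [e11]
      have e12 := sum_coef J (fun j => ((m k j : ℝ)
          + ((((ord k).take (cnt p (ord k).length T')).count j : ℕ) : ℝ))) (fun j => (y j : ℝ)) τ g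
      rw [e12, hE]
      congr 1
      rw [← Finset.sum_add_distrib]
      apply Finset.sum_congr rfl
      intro j _
      rw [add_smul]
    have e2 : ∑ i ∈ I \ J, c i • X.starProjection (g i)
        = ∑ i ∈ I \ J, (xold t' i : ℝ) • X.starProjection (g i)
          - τ • ∑ i ∈ I \ J, (y i : ℝ) • X.starProjection (g i) := by
      have e21 : ∑ i ∈ I \ J, c i • X.starProjection (g i)
          = ∑ i ∈ I \ J, ((xold t' i : ℝ) - τ * y i) • X.starProjection (g i) := by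
        apply Finset.sum_congr rfl
        intro i hi
        simp only [hc]
        rw [finePath_R J m ord xold L T' k p hp i (Finset.mem_sdiff.1 hi).2]
      rw [e21]
      exact sum_coef (I \ J) (fun i => (xold t' i : ℝ)) (fun i => (y i : ℝ)) τ
        (fun i => X.starProjection (g i))
    rw [e1, e2, hC, hY, smul_add]
    abel
  -- norm bounds
  have hnormD1 : ‖C - ((k:ℝ)/K) • Y‖ ≤ Real.sqrt J.card := by
    rw [← hDkE]
    apply Real.le_sqrt_of_sq_le
    exact hDk.trans hr4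
  have hnormD2 : ‖C + U + W - (((k+1 : ℕ):ℝ)/K) • Y‖ ≤ Real.sqrt J.card := by
    rw [← hDk'E]
    apply Real.le_sqrt_of_sq_le
    exact hDk'.trans hr4
  have hrel := release_bound (ord k) J g (fun j => (ord k).count j) T' p T s (hord_mem k hk)
    (fun _ _ => rfl) hnorm hT' (hord_len k hk) hp hs1 hs2 (hord_dev k hk)
  have hΔ : (∀ i ∈ I \ J, (xold t' i : ℝ) ≤ xold ((k+1)/L) i) ∧
      ∑ i ∈ I \ J, (xold ((k+1)/L) i : ℝ) ≤ ∑ i ∈ I \ J, (xold t' i : ℝ) + 1 := by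
    rcases succ_div_cases k L with h | h
    · rw [h]
      constructor
      · intro i _; exact le_refl _
      · linarith
    · rw [h]
      constructor
      · intro i hi
        exact_mod_cast hold_mono t' ht'lt i hi
      · exact_mod_cast hold_unit t' ht'lt
  have hWnorm : ‖W‖ ≤ 2 := by
    calc ‖W‖ ≤ ∑ i ∈ I \ J, ‖((xold ((k+1)/L) i : ℝ) - xold t' i) • X.starProjection (g i)‖ :=
          norm_sum_le _ _
      _ ≤ ∑ i ∈ I \ J, ((xold ((k+1)/L) i : ℝ) - xold t' i) * 2 := by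
          apply Finset.sum_le_sum
          intro i hi
          rw [norm_smul, Real.norm_eq_abs, abs_of_nonneg (sub_nonneg.2 (hΔ.1 i hi))]
          exact mul_le_mul_of_nonneg_left (hanorm i hi) (sub_nonneg.2 (hΔ.1 i hi))
      _ ≤ 2 := by
          rw [← Finset.sum_mul, Finset.sum_sub_distrib]
          linarith [hΔ.2]
  have hτs : τ = (k:ℝ)/K + s * (((k+1 : ℕ):ℝ)/K - (k:ℝ)/K) := by
    rw [hs]
    push_cast
    field_simp
    ring
  have hX := xpart_bound (C - ((k:ℝ)/K) • Y) (C + U + W - (((k+1 : ℕ):ℝ)/K) • Y) C Y E U W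
    ((k:ℝ)/K) (((k+1 : ℕ):ℝ)/K) τ s (Real.sqrt J.card) (4 * T + 2) rfl rfl hτs hs0 hs1'
    hnormD1 hnormD2 hrel hWnorm
  rw [← hstate] at hX
  have hXsq : ‖∑ j ∈ J, c j • g j + ∑ i ∈ I \ J, c i • X.starProjection (g i)‖^2
      ≤ (J.card : ℝ) * A^2 := by
    have h3 : ‖∑ j ∈ J, c j • g j + ∑ i ∈ I \ J, c i • X.starProjection (g i)‖
        ≤ Real.sqrt J.card * A := by linarith
    have h4 := pow_le_pow_left₀ (norm_nonneg _) h3 2
    rw [mul_pow, Real.sq_sqrt (Nat.cast_nonneg _)] at h4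
    exact h4
  have hcard : (I.card : ℝ) = ((I \ J).card : ℝ) + J.card := by
    have := Finset.card_sdiff_add_card_eq_card hJ
    exact_mod_cast this.symm
  rw [hsplit, hcard]
  linarith

end Vale.Agent.Lib.P262
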