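import Vale.Agent.Lib.P262.Defs

open Finset

namespace Vale.Agent.Lib.P262

/-- reduce the number of fractional coordinates down to the dimension -/
lemma frac_reduce {ι V : Type*} [DecidableEq ι] [AddCommGroup V] [Module ℝ V]
    [FiniteDimensional ℝ V] (A : Finset ι) (a : ι → V) :
    ∀ (n : ℕ) (lam : ι → ℝ), (A.filter (fun i => 0 < lam i ∧ lam i < 1)).card = n →
    (∀ i ∈ A, 0 ≤ lam i) → (∀ i ∈ A, lam i ≤ 1) →
    ∃ μ : ι → ℝ, (∀ i ∈ A, 0 ≤ μ i) ∧ (∀ i ∈ A, μ i ≤ 1) ∧
      ∑ i ∈ A, μ i • a i = ∑ i ∈ A, lam i • a i ∧
      (A.filter (fun i => 0 < μ i ∧ μ i < 1)).card ≤ Module.finrank ℝ V := by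
  intro n
  induction n using Nat.strong_induction_on with
  | _ n ih =>
    intro lam hcard h0 h1
    set F := A.filter (fun i => 0 < lam i ∧ lam i < 1) with hF
    by_cases hle : F.card ≤ Module.finrank ℝ V
    · exact ⟨lam, h0, h1, rfl, hle⟩
    · push Not at hle
      -- a linear dependency on the fractional coordinates
      have hnotli : ¬ LinearIndependent ℝ (fun i : F => a i) := by
        intro hli
        have := hli.fintype_card_le_finrank
        simp only [Fintype.card_coe] at this
        omega
      rw [Fintype.not_linearIndependent_iff] at hnotli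
      obtain ⟨w, hw0, i₀, hi₀⟩ := hnotli
      set W : ι → ℝ := fun i => if h : i ∈ F then w ⟨i, h⟩ else 0 with hW
      have hWsum : ∑ i ∈ A, W i • a i = 0 := by
        have hsub : F ⊆ A := Finset.filter_subset _ _
        rw [← Finset.sum_sdiff hsub]
        have e1 : ∑ i ∈ A \ F, W i • a i = 0 := by
          apply Finset.sum_eq_zero
          intro i hi
          simp [hW, (Finset.mem_sdiff.1 hi).2]
        rw [e1, zero_add, ← Finset.sum_coe_sort F, ← hw0]
        apply Finset.sum_congr rfl
        intro i _
        simp [hW]
      have hWout : ∀ i, i ∉ F → W i = 0 := fun i hi => by simp [hW, hi]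
      set F' := F.filter (fun i => W i ≠ 0) with hF'
      have hF'ne : F'.Nonempty := by
        refine ⟨i₀, Finset.mem_filter.2 ⟨i₀.2, ?_⟩⟩
        simpa [hW] using hi₀
      set r : ι → ℝ := fun i => if 0 < W i then (1 - lam i) / W i else lam i / (- W i) with hr
      obtain ⟨i₁, hi₁, hmin⟩ := Finset.exists_min_image F' r hF'ne
      have hfrac : ∀ i ∈ F, 0 < lam i ∧ lam i < 1 := fun i hi => (Finset.mem_filter.1 hi).2
      have hrpos : ∀ i ∈ F', 0 < r i := by
        intro i hi
        have hiF := (Finset.mem_filter.1 hi).1
        have hne := (Finset.mem_filter.1 hi).2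
        obtain ⟨h2, h3⟩ := hfrac i hiF
        simp only [hr]
        split_ifs with hpos
        · exact div_pos (by linarith) hpos
        · have : W i < 0 := lt_of_le_of_ne (not_lt.1 hpos) hne
          exact div_pos h2 (by linarith)
      set t := r i₁ with ht
      have htpos : 0 < t := hrpos i₁ hi₁
      set lam' : ι → ℝ := fun i => lam i + t * W i with hlam'
      have hbound : ∀ i ∈ F', 0 ≤ lam' i ∧ lam' i ≤ 1 := by
        intro i hi
        have hiF := (Finset.mem_filter.1 hi).1
        have hne := (Finset.mem_filter.1 hi).2
        obtain ⟨h2, h3⟩ := hfrac i hiF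
        have hmin' := hmin i hi
        simp only [hlam']
        by_cases hpos : 0 < W i
        · have e : r i = (1 - lam i) / W i := by simp [hr, hpos]
          have h4 : t * W i ≤ 1 - lam i := by
            calc t * W i ≤ r i * W i := mul_le_mul_of_nonneg_right hmin' hpos.le
              _ = 1 - lam i := by rw [e]; field_simp
          have h5 : 0 ≤ t * W i := (mul_pos htpos hpos).le
          constructor <;> linarith
        · have hneg : W i < 0 := lt_of_le_of_ne (not_lt.1 hpos) hne
          have e : r i = lam i / (- W i) := by simp [hr, hpos]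
          have hneg' : 0 < - W i := by linarith
          have h4 : t * (- W i) ≤ lam i := by
            calc t * (- W i) ≤ r i * (- W i) := mul_le_mul_of_nonneg_right hmin' hneg'.le
              _ = lam i := by rw [e]; field_simp
          have h5 : 0 ≤ t * (- W i) := (mul_pos htpos hneg').le
          constructor <;> nlinarith
      have hsame : ∀ i, W i = 0 → lam' i = lam i := by
        intro i hi
        simp [hlam', hi]
      have h0' : ∀ i ∈ A, 0 ≤ lam' i := by
        intro i hi
        by_cases hWi : W i = 0
        · rw [hsame i hWi]; exact h0 i hi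
        · have hiF : i ∈ F := by
            by_contra hcon
            exact hWi (hWout i hcon)
          exact (hbound i (Finset.mem_filter.2 ⟨hiF, hWi⟩)).1
      have h1' : ∀ i ∈ A, lam' i ≤ 1 := by
        intro i hi
        by_cases hWi : W i = 0
        · rw [hsame i hWi]; exact h1 i hi
        · have hiF : i ∈ F := by
            by_contra hcon
            exact hWi (hWout i hcon)
          exact (hbound i (Finset.mem_filter.2 ⟨hiF, hWi⟩)).2
      have hsum' : ∑ i ∈ A, lam' i • a i = ∑ i ∈ A, lam i • a i := by
        simp only [hlam', add_smul, Finset.sum_add_distrib, mul_smul]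
        rw [← Finset.smul_sum, hWsum, smul_zero, add_zero]
      -- the fractional set shrinks
      have hi₁F : i₁ ∈ F := (Finset.mem_filter.1 hi₁).1
      have hi₁W : W i₁ ≠ 0 := (Finset.mem_filter.1 hi₁).2
      have hi₁A : i₁ ∈ A := (Finset.mem_filter.1 hi₁F).1
      have hi₁bd : lam' i₁ = 0 ∨ lam' i₁ = 1 := by
        simp only [hlam', ht]
        by_cases hpos : 0 < W i₁
        · right
          have e : r i₁ = (1 - lam i₁) / W i₁ := by simp [hr, hpos]
          rw [e]
          field_simp
          ring
        · left
          have hneg : W i₁ ≠ 0 := hi₁W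
          have e : r i₁ = lam i₁ / (- W i₁) := by simp [hr, hpos]
          rw [e]
          field_simp
          ring
      have hlt : (A.filter (fun i => 0 < lam' i ∧ lam' i < 1)).card < n := by
        rw [← hcard]
        apply Finset.card_lt_card
        refine ⟨?_, ?_⟩
        · intro i hi
          obtain ⟨hiA, hi2⟩ := Finset.mem_filter.1 hi
          by_cases hiF : i ∈ F
          · exact hiF
          · rw [hsame i (hWout i hiF)] at hi2
            exact Finset.mem_filter.2 ⟨hiA, hi2⟩
        · intro hsub
          have := hsub hi₁F
          obtain ⟨_, h2, h3⟩ := Finset.mem_filter.1 this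
          rcases hi₁bd with h | h <;> linarith
      obtain ⟨μ, hμ0, hμ1, hμs, hμc⟩ := ih _ hlt lam' rfl h0' h1'
      exact ⟨μ, hμ0, hμ1, hμs.trans hsum', hμc⟩

lemma norm_list_sum_le_length {E : Type*} [SeminormedAddCommGroup E] (l : List E)
    (h : ∀ v ∈ l, ‖v‖ ≤ 1) : ‖l.sum‖ ≤ l.length := by
  induction l with
  | nil => simp
  | cons a l ih =>
    simp only [List.sum_cons, List.length_cons]
    push_cast
    have h1 := h a (by simp)
    have h2 := ih (fun v hv => h v (by simp [hv]))
    have := norm_add_le a l.sum
    linarith

/-- the Grinberg-Sevastyanov chain -/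
lemma gs_chain {ι : Type*} [DecidableEq ι] {d : ℕ} (v : ι → EuclideanSpace ℝ (Fin d)) :
    ∀ (n : ℕ) (A : Finset ι), A.card = n → (∀ i ∈ A, ‖v i‖ ≤ 1) →
    (d < n → ∃ lam : ι → ℝ, (∀ i ∈ A, 0 ≤ lam i) ∧ (∀ i ∈ A, lam i ≤ 1) ∧
      ∑ i ∈ A, lam i • v i = 0 ∧ ∑ i ∈ A, lam i = (n:ℝ) - d) →
    ∃ L : List ι, L.Nodup ∧ (∀ a, a ∈ L ↔ a ∈ A) ∧ ∀ k, ‖((L.take k).map v).sum‖ ≤ d := by
  intro n
  induction n with
  | zero =>
    intro A hA _ _
    rw [Finset.card_eq_zero] at hA
    subst hA
    exact ⟨[], by simp, by simp, by simp⟩
  | succ m ih =>
    intro A hA hv hlam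
    by_cases hnd : m + 1 ≤ d
    · refine ⟨A.toList, A.nodup_toList, by simp, ?_⟩
      intro k
      have h1 : ‖((A.toList.take k).map v).sum‖ ≤ ((A.toList.take k).map v).length := by
        apply norm_list_sum_le_length
        intro x hx
        obtain ⟨a, ha, rfl⟩ := List.mem_map.1 hx
        exact hv a (by simpa using List.mem_of_mem_take ha)
      have h2 : ((A.toList.take k).map v).length ≤ d := by
        simp only [List.length_map, List.length_take, Finset.length_toList]
        omega
      have h3 : ((((A.toList.take k).map v).length : ℕ) : ℝ) ≤ d := by exact_mod_cast h2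
      linarith
    · push Not at hnd
      obtain ⟨lam, hl0, hl1, hls, hlt⟩ := hlam (by omega)
      have hmd : (d:ℝ) < (m:ℝ) + 1 := by exact_mod_cast hnd
      set e : ℝ := (m:ℝ) + 1 - d with he
      have hepos : 0 < e := by linarith
      set s : ℝ := (e - 1) / e with hs
      have hs0 : 0 ≤ s := by
        apply div_nonneg _ hepos.le
        have : (d:ℝ) ≤ m := by exact_mod_cast (by omega : d ≤ m)
        linarith
      have hs1 : s ≤ 1 := by
        rw [hs, div_le_one hepos]; linarith
      set a : ι → EuclideanSpace ℝ (Fin d) × ℝ := fun i => (v i, 1) with ha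
      set lam' : ι → ℝ := fun i => s * lam i with hlam'
      obtain ⟨μ, hμ0, hμ1, hμs, hμc⟩ := frac_reduce A a _ lam' rfl
        (fun i hi => mul_nonneg hs0 (hl0 i hi))
        (fun i hi => by
          have := hl0 i hi
          have := hl1 i hi
          simp only [hlam']
          nlinarith)
      have hfin : Module.finrank ℝ (EuclideanSpace ℝ (Fin d) × ℝ) = d + 1 := by
        rw [Module.finrank_prod]
        simp
      rw [hfin] at hμc
      have hμv : ∑ i ∈ A, μ i • v i = 0 := by
        have := congrArg Prod.fst hμs
        simp only [Prod.fst_sum, Prod.smul_fst, ha, hlam', mul_smul] at this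
        rw [this, ← Finset.smul_sum, hls, smul_zero]
      have hμt : ∑ i ∈ A, μ i = (m:ℝ) - d := by
        have := congrArg Prod.snd hμs
        simp only [Prod.snd_sum, Prod.smul_snd, ha, hlam', smul_eq_mul, mul_one] at this
        rw [this, ← Finset.mul_sum, hlt, hs]
        push_cast
        field_simp
        rw [he]
        ring
      -- some coordinate vanishes
      have hzero : ∃ i ∈ A, μ i = 0 := by
        by_contra hcon
        push Not at hcon
        have hpos : ∀ i ∈ A, 0 < μ i := fun i hi =>
          lt_of_le_of_ne (hμ0 i hi) (hcon i hi).symm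
        set F := A.filter (fun i => 0 < μ i ∧ μ i < 1) with hF
        have hFsub : F ⊆ A := Finset.filter_subset _ _
        have hone : ∀ i ∈ A \ F, μ i = 1 := by
          intro i hi
          obtain ⟨hiA, hiF⟩ := Finset.mem_sdiff.1 hi
          have h2 : ¬ (μ i < 1) := fun h3 =>
            hiF (Finset.mem_filter.2 ⟨hiA, hpos i hiA, h3⟩)
          linarith [hμ1 i hiA, not_lt.1 h2]
        have hsplit : ∑ i ∈ A, μ i = ((A \ F).card : ℝ) + ∑ i ∈ F, μ i := by
          rw [← Finset.sum_sdiff hFsub]
          congr 1
          rw [Finset.sum_congr rfl hone]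
          simp
        have hcardsd : ((A \ F).card : ℝ) + F.card = (m:ℝ) + 1 := by
          have := Finset.card_sdiff_add_card_eq_card hFsub
          rw [hA] at this
          exact_mod_cast this
        have hFle : (F.card : ℝ) ≤ (d:ℝ) + 1 := by exact_mod_cast hμc
        rcases Finset.eq_empty_or_nonempty F with hFe | hFne
        · rw [hFe] at hcardsd hsplit
          simp only [Finset.card_empty, Nat.cast_zero, add_zero, Finset.sum_empty] at hcardsd hsplit
          have hd0 : (0:ℝ) ≤ d := Nat.cast_nonneg d
          rw [hcardsd] at hsplit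
          linarith
        · have hFpos : 0 < ∑ i ∈ F, μ i := Finset.sum_pos (fun i hi => hpos i (hFsub hi)) hFne
          linarith
      obtain ⟨i, hiA, hi0⟩ := hzero
      have hA' : (A.erase i).card = m := by
        rw [Finset.card_erase_of_mem hiA, hA]; rfl
      obtain ⟨L', hnd', hmem', hpref'⟩ := ih (A.erase i) hA'
        (fun j hj => hv j (Finset.mem_of_mem_erase hj))
        (fun _ => ⟨μ, fun j hj => hμ0 j (Finset.mem_of_mem_erase hj),
          fun j hj => hμ1 j (Finset.mem_of_mem_erase hj), by
            rw [← hμv, ← Finset.add_sum_erase A _ hiA, hi0]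
            simp, by
            rw [← hμt, ← Finset.add_sum_erase A _ hiA, hi0]
            simp⟩)
      have hiL' : i ∉ L' := fun h => by
        have := (hmem' i).1 h
        simp at this
      refine ⟨L' ++ [i], ?_, ?_, ?_⟩
      · rw [List.nodup_append]
        refine ⟨hnd', by simp, ?_⟩
        intro x hx y hy
        have : y = i := by simpa using hy
        subst this
        rintro rfl
        exact hiL' hx
      · intro b
        simp only [List.mem_append, List.mem_singleton]
        rw [hmem' b, Finset.mem_erase]
        constructor
        · rintro (⟨_, h⟩ | rfl)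
          · exact h
          · exact hiA
        · intro hb
          by_cases h : b = i
          · exact Or.inr h
          · exact Or.inl ⟨h, hb⟩
      · intro k
        by_cases hk : k ≤ L'.length
        · rw [List.take_append_of_le_length hk]
          exact hpref' k
        · have htake : (L' ++ [i]).take k = L' ++ [i] := by
            apply List.take_of_length_le
            simp only [List.length_append, List.length_singleton]
            omega
          rw [htake]
          have hnd2 : (L' ++ [i]).Nodup := by
            rw [List.nodup_append]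
            refine ⟨hnd', by simp, ?_⟩
            intro x hx y hy
            have : y = i := by simpa using hy
            subst this
            rintro rfl
            exact hiL' hx
          have hset : (L' ++ [i]).toFinset = A := by
            ext b
            simp only [List.mem_toFinset, List.mem_append, List.mem_singleton]
            rw [hmem' b, Finset.mem_erase]
            constructor
            · rintro (⟨_, h⟩ | rfl)
              · exact h
              · exact hiA
            · intro hb
              by_cases h : b = i
              · exact Or.inr h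
              · exact Or.inl ⟨h, hb⟩
          have hsum : ((L' ++ [i]).map v).sum = ∑ a ∈ A, v a := by
            rw [← hset, List.sum_toFinset _ hnd2]
          rw [hsum]
          have e1 : ∑ a ∈ A, v a = ∑ a ∈ A, (1 - lam a) • v a := by
            have : ∑ a ∈ A, (1 - lam a) • v a = ∑ a ∈ A, v a - ∑ a ∈ A, lam a • v a := by
              rw [← Finset.sum_sub_distrib]
              apply Finset.sum_congr rfl
              intro a _
              rw [sub_smul, one_smul]
            rw [this, hls, sub_zero]
          rw [e1]
          calc ‖∑ a ∈ A, (1 - lam a) • v a‖ ≤ ∑ a ∈ A, ‖(1 - lam a) • v a‖ := norm_sum_le _ _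
            _ ≤ ∑ a ∈ A, (1 - lam a) := by
                apply Finset.sum_le_sum
                intro a ha
                rw [norm_smul, Real.norm_eq_abs, abs_of_nonneg (by linarith [hl1 a ha])]
                have h2 := hv a ha
                have h3 : 0 ≤ 1 - lam a := by linarith [hl1 a ha]
                nlinarith
            _ = d := by
                rw [Finset.sum_sub_distrib, hlt]
                simp [hA]

/-- **Grinberg-Sevastyanov bound** for the Euclidean norm -/
theorem gs_bound {d : ℕ} (l : List (EuclideanSpace ℝ (Fin d))) (h1 : ∀ v ∈ l, ‖v‖ ≤ 1)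
    (h0 : l.sum = 0) :
    ∃ l' : List (EuclideanSpace ℝ (Fin d)), l'.Perm l ∧ ∀ k : ℕ, ‖(l'.take k).sum‖ ≤ d := by
  set n := l.length with hn
  set v : Fin n → EuclideanSpace ℝ (Fin d) := fun i => l.get i with hv
  have hsumv : ∑ i : Fin n, v i = 0 := by
    rw [← h0, ← List.sum_ofFn]
    congr 1
    exact List.ofFn_get l
  obtain ⟨L, hnd, hmem, hpref⟩ := gs_chain v n Finset.univ (by simp)
    (fun i _ => h1 _ (List.get_mem _ _))
    (by
      intro hdn
      have hnpos : (0:ℝ) < n := by
        have : 0 < n := by omega
        exact_mod_cast this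
      refine ⟨fun _ => ((n:ℝ) - d) / n, ?_, ?_, ?_, ?_⟩
      · intro i _
        apply div_nonneg _ hnpos.le
        have : (d:ℝ) < n := by exact_mod_cast hdn
        linarith
      · intro i _
        rw [div_le_one hnpos]
        have : (0:ℝ) ≤ d := Nat.cast_nonneg d
        linarith
      · rw [← Finset.smul_sum, hsumv, smul_zero]
      · simp only [Finset.sum_const, Finset.card_univ, Fintype.card_fin, nsmul_eq_mul]
        field_simp)
  refine ⟨L.map v, ?_, ?_⟩
  · have hp : L.Perm (List.finRange n) := by
      rw [List.perm_ext_iff_of_nodup hnd (List.nodup_finRange n)]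
      intro a
      simp [hmem a]
    have := hp.map v
    refine this.trans ?_
    rw [← List.ofFn_eq_map]
    exact (List.ofFn_get l) ▸ List.Perm.refl _
  · intro k
    rw [← List.map_take]
    exact hpref k

/-- the unconditional bound, as an `OrderBound` -/
lemma orderBound_dim (d N : ℕ) : OrderBound d N (d:ℝ) :=
  fun l _ h1 h0 => gs_bound l h1 h0

end Vale.Agent.Lib.P262
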