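import Vale.Agent.Lib.P262.Main
import Vale.Agent.Lib.P262.GS

open Finset

namespace Vale.Agent.Lib.P262

variable {ι : Type*} [DecidableEq ι] {d : ℕ}

/-- append an orthonormal coordinate for each letter -/
noncomputable def emb (I : Finset ι) (c : ι → EuclideanSpace ℝ (Fin d)) (i : ι) :
    EuclideanSpace ℝ (Fin d ⊕ I) :=
  WithLp.toLp 2 (Sum.elim (fun k => c i k) (fun j => if (j:ι) = i then 1 else 0))

lemma sum_apply_euclid {κ : Type*} [Fintype κ] (I : Finset ι) (v : ι → ℝ)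
    (f : ι → EuclideanSpace ℝ κ) (a : κ) :
    (∑ i ∈ I, v i • f i) a = ∑ i ∈ I, v i * f i a := by
  classical
  induction I using Finset.induction_on with
  | empty => simp
  | insert j s hj ih =>
    rw [Finset.sum_insert hj, Finset.sum_insert hj, PiLp.add_apply, ih]
    simp

lemma emb_norm_sq (I : Finset ι) (c : ι → EuclideanSpace ℝ (Fin d)) (v : ι → ℝ) :
    ‖∑ i ∈ I, v i • emb I c i‖^2 = ‖∑ i ∈ I, v i • c i‖^2 + ∑ i ∈ I, v i^2 := by
  rw [EuclideanSpace.norm_sq_eq, EuclideanSpace.norm_sq_eq, Fintype.sum_sum_type]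
  congr 1
  · apply Finset.sum_congr rfl
    intro k _
    rw [sum_apply_euclid, sum_apply_euclid]
    simp [emb]
  · rw [← Finset.sum_coe_sort I (fun i => v i ^ 2)]
    apply Finset.sum_congr rfl
    intro j _
    rw [sum_apply_euclid]
    have : ∑ i ∈ I, v i * (emb I c i) (Sum.inr j) = v j := by
      simp only [emb, Sum.elim_inr, mul_ite, mul_one, mul_zero]
      rw [Finset.sum_ite_eq]
      simp
    rw [this]
    simp

/-- **Word theorem for real vectors**: a lattice path with small deviation -/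
theorem exists_path (β : ℝ) (hβ : 0 ≤ β) (I : Finset ι) (c : ι → EuclideanSpace ℝ (Fin d))
    (hc : ∀ i ∈ I, ‖c i‖ ≤ 1) (y : ι → ℕ) (hy : ∀ i ∈ I, 1 ≤ y i)
    (hOB : ∀ r, 1 ≤ r → r ≤ I.card → OrderBound r (20 * r * 103 ^ r) (β * Real.sqrt r)) :
    ∃ (Q : ℕ) (x : ℕ → ι → ℕ), 0 < Q ∧ (∀ i ∈ I, x 0 i = 0) ∧ (∀ i ∈ I, x Q i = y i) ∧
      (∀ t < Q, ∀ i ∈ I, x t i ≤ x (t+1) i) ∧
      (∀ t < Q, ∑ i ∈ I, x (t+1) i ≤ ∑ i ∈ I, x t i + 1) ∧
      ∀ t < Q, ∀ τ : ℝ, (t:ℝ)/Q ≤ τ → τ ≤ ((t:ℝ)+1)/Q →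
        ‖∑ i ∈ I, ((x t i : ℝ) - τ * y i) • c i‖ ≤ (5 + 4 * β) * Real.sqrt I.card := by
  have hLB : LB I (emb I c) := by
    intro v
    rw [emb_norm_sq]
    have := sq_nonneg ‖∑ i ∈ I, v i • c i‖
    linarith
  have hnorm : ∀ i ∈ I, ‖emb I c i‖ ≤ 2 := by
    intro i hi
    have h1 : emb I c i = ∑ a ∈ I, (if a = i then (1:ℝ) else 0) • emb I c a := by
      simp [Finset.sum_ite_eq', hi]
    have h2 := emb_norm_sq I c (fun a => if a = i then (1:ℝ) else 0)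
    rw [← h1] at h2
    have h3 : ∑ a ∈ I, (if a = i then (1:ℝ) else 0) • c a = c i := by
      simp [Finset.sum_ite_eq', hi]
    rw [h3] at h2
    have h4 : ∑ a ∈ I, (if a = i then (1:ℝ) else 0)^2 = 1 := by
      simp [ite_pow, Finset.sum_ite_eq', hi]
    rw [h4] at h2
    have h5 := hc i hi
    have h6 := norm_nonneg (c i)
    have h7 : ‖emb I c i‖^2 ≤ 2^2 := by nlinarith
    exact (sq_le_sq₀ (norm_nonneg _) (by norm_num)).1 h7
  obtain ⟨Q, x, hS⟩ := exists_sched β hβ I.card I (emb I c) y rfl hnorm hy hLB hOB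
  refine ⟨Q, x, hS.Qpos, hS.start, hS.stop, hS.mono, hS.unit, ?_⟩
  intro t ht τ h1 h2
  have h3 := hS.dev t ht τ h1 h2
  rw [emb_norm_sq] at h3
  have h4 : 0 ≤ ∑ i ∈ I, ((x t i : ℝ) - τ * y i)^2 := Finset.sum_nonneg (fun _ _ => sq_nonneg _)
  have h5 : ‖∑ i ∈ I, ((x t i : ℝ) - τ * y i) • c i‖^2 ≤ I.card * (5 + 4 * β)^2 := by linarith
  have h6 : 0 ≤ (5 + 4 * β) * Real.sqrt I.card := by positivity
  apply (sq_le_sq₀ (norm_nonneg _) h6).1
  rw [mul_pow, Real.sq_sqrt (Nat.cast_nonneg _)]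
  linarith

end Vale.Agent.Lib.P262
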