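import Vale.Agent.Lib.P262.Final

open Finset

namespace Vale.Agent.Lib.P262

lemma sum_of_all_eq {E : Type*} [NormedAddCommGroup E] [NormedSpace ℝ E] (X : List E) (γ : E)
    (h : ∀ v ∈ X, v = γ) : X.sum = (X.length : ℝ) • γ := by
  induction X with
  | nil => simp
  | cons a X ih =>
    have h1 := ih (fun v hv => h v (by simp [hv]))
    have h2 := h a (by simp)
    simp only [List.sum_cons, List.length_cons, h1, h2]
    push_cast
    rw [add_smul, one_smul]
    abel

/-- families with at most `n` distinct vectors -/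
theorem few_distinct {d : ℕ} (n : ℕ) (β : ℝ) (hβ : 0 ≤ β)
    (hOB : ∀ r, 1 ≤ r → r ≤ n → OrderBound r (20 * r * 103 ^ r) (β * Real.sqrt r))
    (l : List (EuclideanSpace ℝ (Fin d))) (hl1 : ∀ v ∈ l, ‖v‖ ≤ 1) (hl0 : l.sum = 0)
    (S : Finset (EuclideanSpace ℝ (Fin d))) (hS : S.card ≤ n) (hlS : ∀ v ∈ l, v ∈ S) :
    ∃ l' : List (EuclideanSpace ℝ (Fin d)), l'.Perm l ∧
      ∀ k : ℕ, ‖(l'.take k).sum‖ ≤ (5 + 4 * β) * Real.sqrt n := by
  classical
  set I := l.toFinset with hI
  have hIS : I.card ≤ n := by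
    refine le_trans (Finset.card_le_card ?_) hS
    intro v hv
    exact hlS v (List.mem_toFinset.1 hv)
  set q : EuclideanSpace ℝ (Fin d) → List (EuclideanSpace ℝ (Fin d)) :=
    fun γ => l.filter (fun v => id v = γ) with hq
  have hqeq : ∀ γ, ∀ v ∈ q γ, v = γ := fun γ v hv => by
    simpa using (List.mem_filter.1 hv).2
  have hcoe : (l : Multiset (EuclideanSpace ℝ (Fin d)))
      = ∑ γ ∈ I, ((q γ : List _) : Multiset (EuclideanSpace ℝ (Fin d))) :=
    filter_decomp id I l (fun a ha => List.mem_toFinset.2 ha)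
  obtain ⟨W, τ, h1, h2, h3, h4⟩ := section_word β hβ I (fun γ => γ)
    (fun i hi => hl1 i (List.mem_toFinset.1 hi)) (fun γ => (q γ).length)
    (fun i hi => by
      have hi' := List.mem_toFinset.1 hi
      have : i ∈ q i := List.mem_filter.2 ⟨hi', by simp⟩
      exact List.length_pos_of_mem this)
    (fun r hr1 hr2 => hOB r hr1 (hr2.trans hIS)) q (fun _ _ => rfl) 0
    (fun i _ k => by
      rw [sum_of_all_eq _ i (fun v hv => hqeq i v (List.mem_of_mem_take hv))]
      simp)
  have hperm : W.Perm l := by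
    apply Multiset.coe_eq_coe.1
    rw [h1, ← hcoe]
  have he : ∑ i ∈ I, ((q i).length : ℝ) • i = 0 := by
    have h5 : ∀ i ∈ I, ((q i).length : ℝ) • i = (q i).sum := fun i _ =>
      (sum_of_all_eq _ i (hqeq i)).symm
    rw [Finset.sum_congr rfl h5, ← msum, ← hcoe, Multiset.sum_coe]
    exact hl0
  refine ⟨W, hperm, ?_⟩
  have hb : ∀ k ≤ W.length, ‖(W.take k).sum‖ ≤ (5 + 4 * β) * Real.sqrt n := by
    intro k hk
    have h5 := h4 k hk
    rw [he, smul_zero, sub_zero, mul_zero, add_zero] at h5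
    refine h5.trans ?_
    apply mul_le_mul_of_nonneg_left _ (by positivity)
    apply Real.sqrt_le_sqrt
    exact_mod_cast hIS
  intro k
  by_cases hk : k ≤ W.length
  · exact hb k hk
  · have e : W.take k = W.take W.length := by
      rw [List.take_of_length_le (by omega), List.take_length]
    rw [e]
    exact hb _ (le_refl _)

end Vale.Agent.Lib.P262
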