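import Vale.Agent.Lib.P262.Top

open Finset

namespace Vale.Agent.Lib.P262

lemma OrderBound.mono {d N N' : ℕ} {R R' : ℝ} (h : OrderBound d N R) (hN : N' ≤ N) (hR : R ≤ R') :
    OrderBound d N' R' := by
  intro l h1 h2 h3
  obtain ⟨l', hp, hb⟩ := h l (h1.trans hN) h2 h3
  exact ⟨l', hp, fun k => (hb k).trans hR⟩

lemma count_bound (d : ℕ) :
    (2 * (8 * d ^ 2 * (d + 1)) * 1 + 1) ^ d * (2 * (2 * (2 * d) * (11 * (d + 1)) + 1) ^ d + d + 1)
      ≤ (d + 2) ^ (10 * d + 2) := by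
  have hb1 : 2 * (8 * d ^ 2 * (d + 1)) * 1 + 1 ≤ (d + 2) ^ 5 := by
    have : (d + 2) ^ 5 = d^5 + 10 * d^4 + 40 * d^3 + 80 * d^2 + 80 * d + 32 := by ring
    rw [this]
    nlinarith [Nat.zero_le (d^5), Nat.zero_le (d^4), Nat.zero_le (d^3), Nat.zero_le (d^2)]
  have hb2 : 2 * (2 * d) * (11 * (d + 1)) + 1 ≤ (d + 2) ^ 5 := by
    have : (d + 2) ^ 5 = d^5 + 10 * d^4 + 40 * d^3 + 80 * d^2 + 80 * d + 32 := by ring
    rw [this]
    nlinarith [Nat.zero_le (d^5), Nat.zero_le (d^4), Nat.zero_le (d^3), Nat.zero_le (d^2)]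
  set x := (d + 2) ^ (5 * d) with hx
  have h1 : (2 * (8 * d ^ 2 * (d + 1)) * 1 + 1) ^ d ≤ x := by
    rw [hx, pow_mul]
    exact Nat.pow_le_pow_left hb1 d
  have h2 : (2 * (2 * d) * (11 * (d + 1)) + 1) ^ d ≤ x := by
    rw [hx, pow_mul]
    exact Nat.pow_le_pow_left hb2 d
  have hxpos : 1 ≤ x := Nat.one_le_pow _ _ (by omega)
  have h3 : 2 * (2 * (2 * d) * (11 * (d + 1)) + 1) ^ d + d + 1 ≤ (d + 2) ^ 2 * x := by
    have : d + 1 ≤ (d + 1) * x := Nat.le_mul_of_pos_right _ hxpos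
    nlinarith
  calc _ ≤ x * ((d + 2) ^ 2 * x) := Nat.mul_le_mul h1 h3
    _ = (d + 2) ^ (10 * d + 2) := by
        rw [hx]
        ring

/-- **Unconditional reduction theorem.** -/
theorem reduction {d : ℕ} (hd : 1 ≤ d) (β : ℝ) (hβ : 0 ≤ β) (T : ℝ)
    (h₁ : ∀ r, 1 ≤ r → r ≤ d + 1 → OrderBound r (20 * r * 103 ^ r) (β * Real.sqrt r))
    (h₂ : OrderBound d ((d + 2) ^ (10 * d + 2)) T)
    (l : List (EuclideanSpace ℝ (Fin d))) (hl1 : ∀ v ∈ l, ‖v‖ ≤ 1) (hl0 : l.sum = 0) :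
    ∃ l' : List (EuclideanSpace ℝ (Fin d)), l'.Perm l ∧
      ∀ k : ℕ, ‖(l'.take k).sum‖ ≤ T + 4 * (5 + 4 * β) * Real.sqrt ((d:ℝ) + 1) + 2 := by
  set s := Real.sqrt ((d:ℝ) + 1) with hs
  have hd' : (1:ℝ) ≤ d := by exact_mod_cast hd
  have hs2 : s ^ 2 = (d:ℝ) + 1 := Real.sq_sqrt (by positivity)
  have hs1 : 1 ≤ s := by
    rw [hs, Real.one_le_sqrt]
    linarith
  set β' := min β s with hβ'
  have hβ'0 : 0 ≤ β' := le_min hβ (by linarith)
  have hβ'β : β' ≤ β := min_le_left _ _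
  have hβ's : β' ≤ s := min_le_right _ _
  have hOB : ∀ r, 1 ≤ r → r ≤ d + 1 → OrderBound r (20 * r * 103 ^ r) (β' * Real.sqrt r) := by
    intro r hr1 hr2
    by_cases hle : β ≤ s
    · rw [hβ', min_eq_left hle]
      exact h₁ r hr1 hr2
    · rw [hβ', min_eq_right (not_le.1 hle).le]
      apply (orderBound_dim r _).mono (le_refl _)
      have hrc : (r:ℝ) ≤ (d:ℝ) + 1 := by exact_mod_cast hr2
      have h2 : Real.sqrt r ≤ s := Real.sqrt_le_sqrt hrc
      have h3 : Real.sqrt r * Real.sqrt r = r := Real.mul_self_sqrt (Nat.cast_nonneg r)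
      nlinarith [Real.sqrt_nonneg (r:ℝ)]
  have hR₀ : (5 + 4 * β') * s + 1/4 + ((d:ℝ) + 1) ≤ ((11 * (d + 1) : ℕ) : ℝ) := by
    push_cast
    nlinarith
  obtain ⟨blocks, hfl, hlen, hgood⟩ := exists_blocks hd β' hβ'0 (11 * (d + 1)) hR₀ hOB l hl1 hl0
  have hperm : blocks.flatten.Perm l := Multiset.coe_eq_coe.1 hfl
  have hsum0 : blocks.flatten.sum = 0 := by rw [hperm.sum_eq, hl0]
  obtain ⟨l', hp, hb⟩ := order_blocks blocks ((d + 2) ^ (10 * d + 2)) T
    (4 * ((5 + 4 * β') * s + 1/4) + 1) (by positivity) h₂ (hlen.trans (count_bound d))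
    (fun b hbb => (hgood b hbb).1) hsum0 (fun b hbb => (hgood b hbb).2)
  refine ⟨l', hp.trans hperm, fun k => (hb k).trans ?_⟩
  have h5 : (5 + 4 * β') * s ≤ (5 + 4 * β) * s :=
    mul_le_mul_of_nonneg_right (by linarith) (by linarith)
  nlinarith

/-- the bound of Banaszczyk, as a hypothesis -/
def BanaszczykBound (C : ℝ) : Prop :=
  ∀ d N : ℕ, 1 ≤ d → 1 ≤ N → OrderBound d N (C * (Real.sqrt d + Real.sqrt (Real.log N)))

lemma log_two_le : Real.log 2 ≤ 7 / 10 := by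
  have := Real.log_two_lt_d9
  linarith

lemma log_step (r : ℕ) (hr : 1 ≤ r) : Real.log ((20 * r * 103 ^ r : ℕ) : ℝ) ≤ 10 * (r:ℝ) := by
  have hr' : (1:ℝ) ≤ r := by exact_mod_cast hr
  have h20 : Real.log 20 ≤ 4 := by
    have : Real.log 20 ≤ Real.log (2 ^ 5) := Real.log_le_log (by norm_num) (by norm_num)
    rw [Real.log_pow] at this
    have := log_two_le
    push_cast at *
    linarith
  have h103 : Real.log 103 ≤ 5 := by
    have : Real.log 103 ≤ Real.log (2 ^ 7) := Real.log_le_log (by norm_num) (by norm_num)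
    rw [Real.log_pow] at this
    have := log_two_le
    push_cast at *
    linarith
  have hlogr : Real.log r ≤ r := by
    have := Real.log_le_sub_one_of_pos (show (0:ℝ) < r by linarith)
    linarith
  push_cast
  rw [Real.log_mul (by positivity) (by positivity), Real.log_mul (by norm_num) (by positivity),
    Real.log_pow]
  nlinarith

/-- **Main conditional theorem**: Banaszczyk's bound implies `S₂(d) = O(√(d log d))`. -/
theorem steinitz_sqrt_log {C : ℝ} (hC : 0 ≤ C) (hB : BanaszczykBound C) {d : ℕ} (hd : 1 ≤ d)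
    (l : List (EuclideanSpace ℝ (Fin d))) (hl1 : ∀ v ∈ l, ‖v‖ ≤ 1) (hl0 : l.sum = 0) :
    ∃ l' : List (EuclideanSpace ℝ (Fin d)), l'.Perm l ∧
      ∀ k : ℕ, ‖(l'.take k).sum‖ ≤ 85 * (1 + C) * Real.sqrt (((d:ℝ) + 1) * Real.log ((d:ℝ) + 2)) := by
  have hd' : (1:ℝ) ≤ d := by exact_mod_cast hd
  have h₁ : ∀ r, 1 ≤ r → r ≤ d + 1 →
      OrderBound r (20 * r * 103 ^ r) ((5 * C) * Real.sqrt r) := by
    intro r hr1 _
    have hN : 1 ≤ 20 * r * 103 ^ r := by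
      have : 0 < 20 * r * 103 ^ r := by positivity
      omega
    apply (hB r _ hr1 hN).mono (le_refl _)
    have hlog := log_step r hr1
    have hr' : (0:ℝ) ≤ r := Nat.cast_nonneg r
    have h2 : Real.sqrt (Real.log ((20 * r * 103 ^ r : ℕ) : ℝ)) ≤ 4 * Real.sqrt r := by
      apply Real.sqrt_le_iff.2
      constructor
      · positivity
      · rw [mul_pow, Real.sq_sqrt hr']
        nlinarith
    nlinarith [Real.sqrt_nonneg (r:ℝ)]
  have hN₂ : 1 ≤ (d + 2) ^ (10 * d + 2) := Nat.one_le_pow _ _ (by omega)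
  obtain ⟨l', hp, hb⟩ := reduction hd (5 * C) (by positivity) _ h₁ (hB d _ hd hN₂) l hl1 hl0
  refine ⟨l', hp, fun k => (hb k).trans ?_⟩
  set L := Real.log ((d:ℝ) + 2) with hL
  have hL1 : 1 ≤ L := by
    have h1 : Real.exp 1 ≤ (d:ℝ) + 2 := by
      have := Real.exp_one_lt_d9
      linarith
    rw [hL, Real.le_log_iff_exp_le (by linarith)]
    exact h1
  set S := Real.sqrt (((d:ℝ) + 1) * L) with hS
  have hsd : Real.sqrt d ≤ S := Real.sqrt_le_sqrt (by nlinarith)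
  have hsd1 : Real.sqrt ((d:ℝ) + 1) ≤ S := Real.sqrt_le_sqrt (by nlinarith)
  have hS1 : 1 ≤ S := by
    rw [hS, Real.one_le_sqrt]
    nlinarith
  have hlogN : Real.sqrt (Real.log (((d + 2) ^ (10 * d + 2) : ℕ) : ℝ)) ≤ 4 * S := by
    apply Real.sqrt_le_iff.2
    constructor
    · positivity
    · rw [mul_pow, hS, Real.sq_sqrt (by nlinarith)]
      push_cast
      rw [Real.log_pow]
      push_cast
      nlinarith
  have hT : C * (Real.sqrt d + Real.sqrt (Real.log (((d + 2) ^ (10 * d + 2) : ℕ) : ℝ))) ≤ 5 * C * S := by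
    have : Real.sqrt d + Real.sqrt (Real.log (((d + 2) ^ (10 * d + 2) : ℕ) : ℝ)) ≤ 5 * S := by
      linarith
    nlinarith
  have h3 : 4 * (5 + 4 * (5 * C)) * Real.sqrt ((d:ℝ) + 1) ≤ 4 * (5 + 4 * (5 * C)) * S :=
    mul_le_mul_of_nonneg_left hsd1 (by positivity)
  nlinarith

end Vale.Agent.Lib.P262
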