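import Vale.Agent.Lib.P262.Round

open Finset

namespace Vale.Agent.Lib.P262

variable {ι : Type*} [DecidableEq ι] {G : Type*} [NormedAddCommGroup G] [InnerProductSpace ℝ G]

omit [DecidableEq ι] in
lemma LB.finrank_span {J : Finset ι} {g : ι → G} (h : LB J g) :
    Module.finrank ℝ (Submodule.span ℝ (g '' (J : Set ι))) = J.card := by
  classical
  have hli : LinearIndependent ℝ (fun i : J => g i) := by
    rw [Fintype.linearIndependent_iff]
    intro c hc i
    set v : ι → ℝ := fun j => if hj : j ∈ J then c ⟨j, hj⟩ else 0 with hv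
    have e : ∑ j ∈ J, v j • g j = 0 := by
      rw [← Finset.sum_coe_sort J (fun j => v j • g j), ← hc]
      apply Finset.sum_congr rfl
      intro j _
      simp [hv]
    have h1 := h.coord v i.2
    rw [e, norm_zero] at h1
    have h2 : v i = c i := by simp [hv]
    rw [← h2]
    exact abs_nonpos_iff.1 h1
  have := finrank_span_eq_card hli
  have e : Set.range (fun i : J => g i) = g '' (J : Set ι) := by
    ext x
    simp
  rw [e] at this
  simpa using this

/-- an ordering of a step's letters with small deviation, from the bounded-length hypothesis -/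
lemma exists_inner_order
    (J : Finset ι) (g : ι → G) (hLB : LB J g) (hnorm : ∀ j ∈ J, ‖g j‖ ≤ 2)
    (u : ι → ℕ) (N₀ : ℕ) (T : ℝ)
    (hN : ∑ j ∈ J, u j ≤ N₀)
    (hOB : OrderBound J.card N₀ T) :
    ∃ L : List ι, (∀ a ∈ L, a ∈ J) ∧ (∀ j ∈ J, L.count j = u j) ∧
      ∀ p : ℕ, p ≤ L.length →
        ‖((L.take p).map g).sum - ((p:ℝ) / L.length) • ∑ j ∈ J, (u j:ℝ) • g j‖ ≤ 4 * T := by
  set X : Submodule ℝ G := Submodule.span ℝ (g '' (J : Set ι)) with hX
  have : FiniteDimensional ℝ X := FiniteDimensional.span_of_finite ℝ (J.finite_toSet.image g)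
  have hr : Module.finrank ℝ X = J.card := hLB.finrank_span
  set φ : X ≃ₗᵢ[ℝ] EuclideanSpace ℝ (Fin J.card) :=
    ((stdOrthonormalBasis ℝ X).reindex (finCongr hr)).repr with hφ
  set ψ : G →L[ℝ] EuclideanSpace ℝ (Fin J.card) :=
    (φ.toContinuousLinearEquiv : X →L[ℝ] EuclideanSpace ℝ (Fin J.card)).comp
      X.orthogonalProjectionOnto with hψ
  have hψnorm : ∀ x ∈ X, ‖ψ x‖ = ‖x‖ := by
    intro x hx
    have e : X.orthogonalProjectionOnto x = ⟨x, hx⟩ :=
      Submodule.orthogonalProjectionOnto_mem_subspace_eq_self ⟨x, hx⟩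
    simp only [hψ, ContinuousLinearMap.comp_apply]
    rw [e]
    simp
  have hgX : ∀ j ∈ J, g j ∈ X := fun j hj =>
    Submodule.subset_span ⟨j, hj, rfl⟩
  set N : ℕ := ∑ j ∈ J, u j with hNdef
  set U : G := ∑ j ∈ J, (u j:ℝ) • g j with hU
  have hUX : U ∈ X := Submodule.sum_mem _ (fun j hj => Submodule.smul_mem _ _ (hgX j hj))
  have hUnorm : ‖U‖ ≤ 2 * N := by
    calc ‖U‖ ≤ ∑ j ∈ J, ‖(u j:ℝ) • g j‖ := norm_sum_le _ _
      _ ≤ ∑ j ∈ J, (u j : ℝ) * 2 := by
          apply Finset.sum_le_sum
          intro j hj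
          rw [norm_smul, Real.norm_eq_abs, abs_of_nonneg (Nat.cast_nonneg _)]
          exact mul_le_mul_of_nonneg_left (hnorm j hj) (Nat.cast_nonneg _)
      _ = 2 * N := by
          rw [← Finset.sum_mul, hNdef]
          push_cast
          ring
  set mean : G := (1 / (N:ℝ)) • U with hmean
  have hmeanX : mean ∈ X := Submodule.smul_mem _ _ hUX
  have hmeannorm : ‖mean‖ ≤ 2 := by
    rw [hmean, norm_smul, Real.norm_eq_abs, abs_of_nonneg (by positivity)]
    rcases Nat.eq_zero_or_pos N with h0 | hpos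
    · simp [h0]
    · have hpos' : (0:ℝ) < N := by exact_mod_cast hpos
      rw [div_mul_eq_mul_div, one_mul, div_le_iff₀ hpos']
      linarith
  set w : ι → G := fun j => (1/4 : ℝ) • (g j - mean) with hw
  have hwX : ∀ j ∈ J, w j ∈ X := fun j hj =>
    Submodule.smul_mem _ _ (Submodule.sub_mem _ (hgX j hj) hmeanX)
  have hwnorm : ∀ j ∈ J, ‖w j‖ ≤ 1 := by
    intro j hj
    simp only [hw]
    rw [norm_smul, Real.norm_eq_abs, abs_of_nonneg (by norm_num)]
    have := norm_sub_le (g j) mean
    have h2 := hnorm j hj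
    linarith
  have hgw : ∀ j, g j = (4:ℝ) • w j + mean := by
    intro j
    simp only [hw, smul_smul]
    norm_num
  obtain ⟨L₀, hL₀, hc₀⟩ := exists_list_count J u
  have hlen₀ : L₀.length = N := by
    rw [← sum_count_eq_length J L₀ hL₀, hNdef]
    exact Finset.sum_congr rfl hc₀
  have hsumw : (L₀.map w).sum = 0 := by
    rw [list_sum_eq_count J L₀ hL₀ w]
    have e : ∑ j ∈ J, L₀.count j • w j = (1/4 : ℝ) • (U - (N:ℝ) • mean) := by
      rw [hU, smul_sub, hNdef]
      push_cast
      rw [Finset.sum_smul, Finset.smul_sum, Finset.smul_sum, ← Finset.sum_sub_distrib]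
      apply Finset.sum_congr rfl
      intro j hj
      rw [hc₀ j hj]
      simp only [hw]
      rw [← Nat.cast_smul_eq_nsmul ℝ, smul_sub, smul_comm (1/4:ℝ) ((u j:ℝ)) (g j),
        smul_comm (1/4:ℝ) ((u j:ℝ)) mean, smul_sub]
    have hmeanU : (N:ℝ) • mean = U := by
      rcases Nat.eq_zero_or_pos N with h0 | hpos
      · have hU0 : U = 0 := by
          have := hUnorm
          rw [h0] at this
          simpa using this
        simp [hU0, hmean]
      · have hpos' : (N:ℝ) ≠ 0 := by
          have : (0:ℝ) < N := by exact_mod_cast hpos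
          exact this.ne'
        rw [hmean, smul_smul, mul_one_div_cancel hpos', one_smul]
    rw [e, hmeanU, sub_self, smul_zero]
  have hsum' : (L₀.map (fun a => ψ (w a))).sum = 0 := by
    have h1 := map_list_sum ψ (L₀.map w)
    rw [hsumw, map_zero, List.map_map] at h1
    exact h1.symm
  obtain ⟨l', hperm, hpref⟩ := hOB (L₀.map (fun a => ψ (w a)))
    (by simpa [hlen₀] using hN)
    (by
      intro v hv
      obtain ⟨a, ha, rfl⟩ := List.mem_map.1 hv
      rw [hψnorm _ (hwX a (hL₀ a ha))]
      exact hwnorm a (hL₀ a ha))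
    hsum'
  obtain ⟨L, hLperm, hLmap⟩ := exists_perm_map _ L₀ l' hperm
  have hLmem : ∀ a ∈ L, a ∈ J := fun a ha => hL₀ a (hLperm.subset ha)
  have hlen : L.length = N := hLperm.length_eq.trans hlen₀
  refine ⟨L, hLmem, fun j hj => (hLperm.count_eq j).trans (hc₀ j hj), ?_⟩
  intro p hp
  have hlist : ∀ l : List ι, (l.map g).sum = (4:ℝ) • (l.map w).sum + (l.length:ℝ) • mean := by
    intro l
    induction l with
    | nil => simp
    | cons a l ih =>
      simp only [List.map_cons, List.sum_cons, List.length_cons, ih]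
      have h1 := hgw a
      rw [h1]
      push_cast
      module
  have hmeanU : (N:ℝ) • mean = U := by
    rcases Nat.eq_zero_or_pos N with h0 | hpos
    · have hU0 : U = 0 := by
        have := hUnorm
        rw [h0] at this
        simpa using this
      simp [hU0, hmean]
    · have hpos' : (N:ℝ) ≠ 0 := by
        have : (0:ℝ) < N := by exact_mod_cast hpos
        exact this.ne'
      rw [hmean, smul_smul, mul_one_div_cancel hpos', one_smul]
  have hpU : ((p:ℝ) / L.length) • U = (p:ℝ) • mean := by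
    rcases Nat.eq_zero_or_pos N with h0 | hpos
    · have hp0 : p = 0 := by omega
      simp [hp0]
    · have hpos' : (N:ℝ) ≠ 0 := by
        have : (0:ℝ) < N := by exact_mod_cast hpos
        exact this.ne'
      rw [hlen, ← hmeanU, smul_smul, div_mul_cancel₀ _ hpos']
  have hlentake : (L.take p).length = p := by
    rw [List.length_take]
    omega
  set S : G := ((L.take p).map w).sum with hS
  have hSX : S ∈ X := by
    apply list_sum_mem
    intro x hx
    obtain ⟨a, ha, rfl⟩ := List.mem_map.1 hx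
    exact hwX a (hLmem a (List.mem_of_mem_take ha))
  have hψS : ψ S = (l'.take p).sum := by
    rw [hS, map_list_sum, List.map_map, ← hLmap, ← List.map_take]
    rfl
  have hSnorm : ‖S‖ ≤ T := by
    rw [← hψnorm S hSX, hψS]
    exact hpref p
  have e : ((L.take p).map g).sum - ((p:ℝ) / L.length) • U = (4:ℝ) • S := by
    rw [hlist, hlentake, hpU]
    abel
  rw [e, norm_smul]
  simp only [Real.norm_eq_abs]
  rw [abs_of_pos (by norm_num : (0:ℝ) < 4)]
  linarith

end Vale.Agent.Lib.P262
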