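import Vale.Agent.Lib.P262.Dev

open Finset

namespace Vale.Agent.Lib.P262

variable {ι : Type*} [DecidableEq ι] {G : Type*} [NormedAddCommGroup G] [InnerProductSpace ℝ G]

/-- one induction step: the path for the slow letters is refined by the fast letters -/
lemma sched_step (β : ℝ) (hβ : 0 ≤ β)
    (I J : Finset ι) (hJI : J ⊆ I) (hJne : J.Nonempty) (g : ι → G) (y : ι → ℕ)
    (hg : ∀ i ∈ I, ‖g i‖ ≤ 2) (hy : ∀ i ∈ I, 1 ≤ y i) (hLBJ : LB J g)
    (hgap : ∀ j ∈ J, 102 * ∑ i ∈ I \ J, y i ≤ y j)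
    (hratio : ∀ j ∈ J, ∑ i ∈ I, y i ≤ 103 ^ J.card * y j)
    (hOB : OrderBound J.card (20 * J.card * 103 ^ J.card) (β * Real.sqrt J.card))
    (X : Submodule ℝ G) [X.HasOrthogonalProjection] (hX : X = Submodule.span ℝ (g '' (J : Set ι)))
    (Qo : ℕ) (xo : ℕ → ι → ℕ)
    (hS : Sched (I \ J) (fun i => g i - X.starProjection (g i)) y (5 + 4 * β) Qo xo) :
    ∃ Q x, Sched I g y (5 + 4 * β) Q x := by
  have hJsubset : ∀ j ∈ J, j ∈ I := fun j hj => hJI hj
  have hSJI : ∑ i ∈ J, y i ≤ ∑ i ∈ I, y i := Finset.sum_le_sum_of_subset hJI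
  obtain ⟨L, K, hL, hK, hfast, hsparse, hK12, hK7⟩ := choose_K J (I \ J) y Qo hS.Qpos hS.Qle hJne
    (fun j hj => hy j (hJI hj)) (fun i hi => hy i (Finset.mem_sdiff.1 hi).1) hgap
    (fun j hj => hSJI.trans (hratio j hj))
  have hKpos : 0 < K := by
    rw [hK]; exact Nat.mul_pos hS.Qpos hL
  have hkL : ∀ k < K, k / L < Qo := by
    intro k hk
    apply Nat.div_lt_of_lt_mul
    rwa [mul_comm, ← hK]
  have hKL : K / L = Qo := by rw [hK]; exact Nat.mul_div_cancel _ hL
  have hgX : ∀ j ∈ J, g j ∈ X := fun j hj => by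
    rw [hX]; exact Submodule.subset_span ⟨j, hj, rfl⟩
  obtain ⟨m, hm0, hmK, hmstep, hmD⟩ := exists_checkpoints J (I \ J) g
    (fun i => X.starProjection (g i)) y K hKpos hLBJ
    (fun i _ => by rw [← hX]; exact Submodule.starProjection_apply_mem _ _)
    (fun i hi => (proj_norm_le X (g i)).trans (hg i (Finset.mem_sdiff.1 hi).1))
    (fun k i => xo (k / L) i)
    (fun i hi => by simpa using hS.start i hi)
    (fun i hi => by simpa [hKL] using hS.stop i hi)
    (fun k hk i hi => by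
      rcases succ_div_cases k L with h | h
      · simp only [h]; exact le_refl _
      · simp only [h]; exact hS.mono _ (hkL k hk) i hi)
    (fun k hk => by
      rcases succ_div_cases k L with h | h
      · simp only [h]; omega
      · simp only [h]; exact hS.unit _ (hkL k hk))
    hsparse hfast
  set r := J.card with hr
  have hrpos : 1 ≤ r := Finset.card_pos.2 hJne
  set S := ∑ i ∈ J, y i with hSdef
  set Nmax := S / K + 1 + 6 * r with hNmax
  set T' := 2 * Nmax with hT'def
  have hT' : 0 < T' := by rw [hT'def, hNmax]; positivity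
  have hK' : (0:ℝ) < K := by exact_mod_cast hKpos
  -- the number of letters in a step
  have hstepR : ∀ k < K, ((∑ j ∈ J, (m (k+1) j - m k j) : ℕ) : ℝ) ≤ (S:ℝ) / K + 6 * r := by
    intro k hk
    push_cast
    have h1 : ∀ j ∈ J, (((m (k+1) j - m k j : ℕ)) : ℝ) ≤ (y j : ℝ) / K + 6 := by
      intro j hj
      have h2 := (hmstep k hk j hj)
      rw [Nat.cast_sub h2.1]
      exact h2.2
    calc ∑ j ∈ J, (((m (k+1) j - m k j : ℕ)) : ℝ) ≤ ∑ j ∈ J, ((y j : ℝ) / K + 6) :=
          Finset.sum_le_sum h1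
      _ = (S:ℝ) / K + 6 * r := by
          rw [Finset.sum_add_distrib, ← Finset.sum_div, hSdef]
          simp [hr]
          ring
  have hstep1 : ∀ k < K, ∑ j ∈ J, (m (k+1) j - m k j) ≤ Nmax := by
    intro k hk
    have h1 := hstepR k hk
    have h2 : S < K * (S / K + 1) := Nat.lt_mul_div_succ S hKpos
    have h3 : (S:ℝ) < K * (((S / K : ℕ) : ℝ) + 1) := by exact_mod_cast h2
    have h4 : (S:ℝ) / K < ((S / K : ℕ) : ℝ) + 1 := by
      rw [div_lt_iff₀ hK']
      linarith
    have h5 : ((∑ j ∈ J, (m (k+1) j - m k j) : ℕ) : ℝ) ≤ (Nmax : ℝ) := by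
      rw [hNmax]
      push_cast
      push_cast at h1
      linarith
    exact_mod_cast h5
  have hstep2 : ∀ k < K, ∑ j ∈ J, (m (k+1) j - m k j) ≤ 20 * r * 103 ^ r := by
    intro k hk
    have h1 := hstepR k hk
    have h2 : (S:ℝ) / K ≤ 12 * 103 ^ r := by
      rw [div_le_iff₀ hK']
      exact_mod_cast hK12
    have hp : (1:ℝ) ≤ 103 ^ r := one_le_pow₀ (by norm_num)
    have hr1 : (1:ℝ) ≤ r := by exact_mod_cast hrpos
    have h5 : ((∑ j ∈ J, (m (k+1) j - m k j) : ℕ) : ℝ) ≤ ((20 * r * 103 ^ r : ℕ) : ℝ) := by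
      push_cast
      push_cast at h1
      nlinarith
    exact_mod_cast h5
  have hex : ∀ k, k < K → ∃ l : List ι, (∀ a ∈ l, a ∈ J) ∧ (∀ j ∈ J, l.count j + m k j = m (k+1) j)
      ∧ 2 * l.length ≤ T' ∧ ∀ q : ℕ, q ≤ l.length →
        ‖((l.take q).map g).sum - ((q:ℝ) / l.length) • ∑ j ∈ J, ((l.count j : ℕ) :ℝ) • g j‖
          ≤ 4 * (β * Real.sqrt r) := by
    intro k hk
    obtain ⟨l, h1, h2, h3⟩ := exists_inner_order J g hLBJ (fun j hj => hg j (hJI hj))
      (fun j => m (k+1) j - m k j) (20 * r * 103 ^ r) (β * Real.sqrt r) (hstep2 k hk) hOB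
    have hlen : l.length = ∑ j ∈ J, (m (k+1) j - m k j) := by
      rw [← sum_count_eq_length J l h1]
      exact Finset.sum_congr rfl h2
    refine ⟨l, h1, ?_, ?_, ?_⟩
    · intro j hj
      rw [h2 j hj]
      have := (hmstep k hk j hj).1
      omega
    · rw [hlen, hT'def]
      have := hstep1 k hk
      omega
    · intro q hq
      have e : ∑ j ∈ J, ((l.count j : ℕ) :ℝ) • g j = ∑ j ∈ J, ((m (k+1) j - m k j : ℕ) :ℝ) • g j :=
        Finset.sum_congr rfl (fun j hj => by rw [h2 j hj])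
      rw [e]
      exact h3 q hq
  choose! ord hord_mem hord_count hord_len hord_dev using hex
  have hAineq : Real.sqrt r + 4 * (β * Real.sqrt r) + 4 ≤ Real.sqrt r * (5 + 4 * β) := by
    have h1 : (1:ℝ) ≤ Real.sqrt r := by
      rw [Real.one_le_sqrt]
      exact_mod_cast hrpos
    nlinarith
  refine ⟨K * T', finePath J m ord xo L T', ?_⟩
  refine ⟨Nat.mul_pos hKpos hT', ?_, ?_, ?_, ?_, ?_, ?_⟩
  · -- size of the horizon
    have h1 : K * (S / K) ≤ S := Nat.mul_div_le S K
    have h2 : K * T' = 2 * (K * (S / K)) + 2 * (K * (1 + 6 * r)) := by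
      rw [hT'def, hNmax]; ring
    have h3 : ∑ i ∈ J, y i ≤ ∑ i ∈ I, y i := hSJI
    rw [h2]
    omega
  · intro i hi
    have e : (0:ℕ) = 0 * T' + 0 := by simp
    rw [e]
    by_cases hiJ : i ∈ J
    · rw [finePath_J J m ord xo L T' 0 0 hT' i hiJ, hm0 i hiJ, cnt_zero _ _ hT']
      simp
    · rw [finePath_R J m ord xo L T' 0 0 hT' i hiJ]
      simpa using hS.start i (Finset.mem_sdiff.2 ⟨hi, hiJ⟩)
  · intro i hi
    have e : K * T' = K * T' + 0 := by simp
    rw [e]
    by_cases hiJ : i ∈ J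
    · rw [finePath_J J m ord xo L T' K 0 hT' i hiJ, hmK i hiJ, cnt_zero _ _ hT']
      simp
    · rw [finePath_R J m ord xo L T' K 0 hT' i hiJ, hKL]
      exact hS.stop i (Finset.mem_sdiff.2 ⟨hi, hiJ⟩)
  · exact fine_mono I J Qo L K T' hK hT' xo m ord hS.mono (fun k hk j hj => (hmstep k hk j hj).1)
      hord_count hord_len
  · exact fine_unit I J hJI Qo L K T' hK hT' xo m ord hS.unit hord_mem hord_count hord_len
  · exact fine_dev I J hJI g y X hgX Qo L K T' hS.Qpos hL hK hT' xo m ord (5 + 4 * β)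
      (β * Real.sqrt r) (fun j hj => hg j (hJI hj))
      (fun i hi => (proj_norm_le X (g i)).trans (hg i (Finset.mem_sdiff.1 hi).1))
      hS.dev hS.mono hS.unit hmD hord_mem hord_count hord_len hord_dev (by positivity) hAineq

/-- **Main scheduling theorem.** -/
theorem exists_sched (β : ℝ) (hβ : 0 ≤ β) :
    ∀ (n : ℕ) (I : Finset ι) (g : ι → G) (y : ι → ℕ), I.card = n →
    (∀ i ∈ I, ‖g i‖ ≤ 2) → (∀ i ∈ I, 1 ≤ y i) → LB I g →
    (∀ r, 1 ≤ r → r ≤ n → OrderBound r (20 * r * 103 ^ r) (β * Real.sqrt r)) →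
    ∃ Q x, Sched I g y (5 + 4 * β) Q x := by
  intro n
  induction n using Nat.strong_induction_on with
  | _ n ih =>
    intro I g y hI hg hy hLB hOB
    by_cases hne : I.Nonempty
    · obtain ⟨J, hJI, hJne, hgap, hratio⟩ := exists_cluster 102 (by norm_num) y _ I rfl hne
      set X : Submodule ℝ G := Submodule.span ℝ (g '' (J : Set ι)) with hX
      have hfd : FiniteDimensional ℝ X :=
        FiniteDimensional.span_of_finite ℝ (J.finite_toSet.image g)
      have hcard : (I \ J).card < n := by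
        rw [← hI]
        apply Finset.card_lt_card
        refine ⟨Finset.sdiff_subset, ?_⟩
        intro h
        obtain ⟨j, hj⟩ := hJne
        have := h (hJI hj)
        simp [hj] at this
      have hcardJ : J.card ≤ n := by
        rw [← hI]; exact Finset.card_le_card hJI
      obtain ⟨Qo, xo, hS⟩ := ih _ hcard (I \ J) (fun i => g i - X.starProjection (g i)) y rfl
        (fun i hi => (sub_proj_norm_le X (g i)).trans (hg i (Finset.mem_sdiff.1 hi).1))
        (fun i hi => hy i (Finset.mem_sdiff.1 hi).1)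
        (hLB.proj hJI X hX)
        (fun r h1 h2 => hOB r h1 (h2.trans hcard.le))
      exact sched_step β hβ I J hJI hJne g y hg hy (hLB.mono hJI) hgap hratio
        (hOB J.card (Finset.card_pos.2 hJne) hcardJ) X hX Qo xo hS
    · rw [Finset.not_nonempty_iff_eq_empty] at hne
      subst hne
      refine ⟨1, fun _ _ => 0, ?_⟩
      refine ⟨by norm_num, by simp, by simp, by simp, by simp, by simp, ?_⟩
      intro t _ τ _ _
      simp

end Vale.Agent.Lib.P262
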