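import Vale.Agent.Lib.P262.Blocks

open Finset

namespace Vale.Agent.Lib.P262

variable {κ : Type*} [DecidableEq κ] {d : ℕ}

omit [DecidableEq κ] in
/-- the rounding error of a part with small support -/
lemma part_error (𝒞 : Finset κ) (c : κ → EuclideanSpace ℝ (Fin d)) (hc : ∀ γ ∈ 𝒞, ‖c γ‖ ≤ 1)
    (p : κ → ℝ) (hp0 : ∀ γ, 0 ≤ p γ) (hsupp : (𝒞.filter (fun γ => 0 < p γ)).card ≤ d + 1)
    (hsum : ∑ γ ∈ 𝒞, p γ • c γ = 0) :
    ‖∑ γ ∈ 𝒞, ((⌊p γ⌋₊ : ℕ) : ℝ) • c γ‖ ≤ (d:ℝ) + 1 := by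
  have e : ∑ γ ∈ 𝒞, ((⌊p γ⌋₊ : ℕ) : ℝ) • c γ = ∑ γ ∈ 𝒞, (((⌊p γ⌋₊ : ℕ) : ℝ) - p γ) • c γ := by
    have : ∑ γ ∈ 𝒞, (((⌊p γ⌋₊ : ℕ) : ℝ) - p γ) • c γ
        = ∑ γ ∈ 𝒞, ((⌊p γ⌋₊ : ℕ) : ℝ) • c γ - ∑ γ ∈ 𝒞, p γ • c γ := by
      rw [← Finset.sum_sub_distrib]
      exact Finset.sum_congr rfl (fun γ _ => sub_smul _ _ _)
    rw [this, hsum, sub_zero]
  rw [e]
  calc _ ≤ ∑ γ ∈ 𝒞, ‖(((⌊p γ⌋₊ : ℕ) : ℝ) - p γ) • c γ‖ := norm_sum_le _ _
    _ ≤ ∑ γ ∈ 𝒞, (if 0 < p γ then (1:ℝ) else 0) := by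
        apply Finset.sum_le_sum
        intro γ hγ
        rw [norm_smul, Real.norm_eq_abs]
        have h1 := hc γ hγ
        by_cases hpos : 0 < p γ
        · simp only [hpos, if_true]
          have h2 : |((⌊p γ⌋₊ : ℕ) : ℝ) - p γ| ≤ 1 := by
            rw [abs_le]
            have h3 := Nat.floor_le (hp0 γ)
            have h4 := Nat.lt_floor_add_one (p γ)
            constructor <;> linarith
          have h5 := norm_nonneg (c γ)
          nlinarith [abs_nonneg (((⌊p γ⌋₊ : ℕ) : ℝ) - p γ)]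
        · have h2 : p γ = 0 := le_antisymm (not_lt.1 hpos) (hp0 γ)
          simp [h2]
    _ = ((𝒞.filter (fun γ => 0 < p γ)).card : ℝ) := by
        rw [← Finset.sum_filter]
        simp
    _ ≤ (d:ℝ) + 1 := by exact_mod_cast hsupp

/-- peeling all the parts off the queues -/
lemma parts_blocks (hd : 1 ≤ d) (β : ℝ) (hβ : 0 ≤ β) (R₀ : ℕ)
    (hR₀ : (5 + 4 * β) * Real.sqrt ((d:ℝ) + 1) + 1/4 + ((d:ℝ) + 1) ≤ R₀)
    (hOB : ∀ r, 1 ≤ r → r ≤ d + 1 → OrderBound r (20 * r * 103 ^ r) (β * Real.sqrt r))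
    (𝒞 : Finset κ) (c : κ → EuclideanSpace ℝ (Fin d)) (hc : ∀ γ ∈ 𝒞, ‖c γ‖ ≤ 1)
    (η : ℝ) (hη0 : 0 ≤ η) (hη : ((d:ℝ) + 1) * η ≤ 1/4) :
    ∀ (ps : List (κ → ℝ)) (qs : κ → List (EuclideanSpace ℝ (Fin d))),
      (∀ p ∈ ps, (∀ γ, 0 ≤ p γ) ∧ (𝒞.filter (fun γ => 0 < p γ)).card ≤ d + 1 ∧
        ∑ γ ∈ 𝒞, p γ • c γ = 0) →
      (∀ γ ∈ 𝒞, (ps.map (fun p => ⌊p γ⌋₊)).sum ≤ (qs γ).length) →
      (∀ γ ∈ 𝒞, ∀ v ∈ qs γ, ‖v‖ ≤ 1) → (∀ γ ∈ 𝒞, Res (qs γ) (c γ) η) →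
      ∃ blocks : List (List (EuclideanSpace ℝ (Fin d))),
        ((blocks.flatten : List _) : Multiset (EuclideanSpace ℝ (Fin d)))
            + ∑ γ ∈ 𝒞, (((qs γ).drop (ps.map (fun p => ⌊p γ⌋₊)).sum : List _) : Multiset _)
          = ∑ γ ∈ 𝒞, ((qs γ : List _) : Multiset _) ∧
        blocks.length ≤ ps.length * (2 * (2 * (2 * d) * R₀ + 1) ^ d) ∧
        ∀ b ∈ blocks, ‖b.sum‖ ≤ 1 ∧
          ∀ j, ‖(b.take j).sum‖ ≤ 4 * ((5 + 4 * β) * Real.sqrt ((d:ℝ) + 1) + 1/4) + 1 := by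
  intro ps
  induction ps with
  | nil =>
    intro qs _ _ _ _
    exact ⟨[], by simp, by simp, by simp⟩
  | cons p ps ih =>
    intro qs hps hlen hunit hres
    obtain ⟨hp0, hpsupp, hpsum⟩ := hps p (by simp)
    set y : κ → ℕ := fun γ => ⌊p γ⌋₊ with hy
    set I := 𝒞.filter (fun γ => 1 ≤ y γ) with hI
    have hIsub : I ⊆ 𝒞 := Finset.filter_subset _ _
    have hIcard : I.card ≤ d + 1 := by
      refine le_trans (Finset.card_le_card ?_) hpsupp
      intro γ hγ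
      obtain ⟨h1, h2⟩ := Finset.mem_filter.1 hγ
      refine Finset.mem_filter.2 ⟨h1, ?_⟩
      have h4 : 1 ≤ p γ := by simpa [hy] using h2
      linarith
    have hyle : ∀ γ ∈ 𝒞, y γ + (ps.map (fun p => ⌊p γ⌋₊)).sum ≤ (qs γ).length := by
      intro γ hγ
      have := hlen γ hγ
      simpa [hy] using this
    have hzero : ∀ γ ∈ 𝒞, γ ∉ I → y γ = 0 := by
      intro γ hγ hnot
      by_contra hne
      exact hnot (Finset.mem_filter.2 ⟨hγ, Nat.one_le_iff_ne_zero.2 hne⟩)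
    have he : ‖∑ i ∈ I, (y i : ℝ) • c i‖ ≤ (d:ℝ) + 1 := by
      have e : ∑ i ∈ I, (y i : ℝ) • c i = ∑ γ ∈ 𝒞, ((⌊p γ⌋₊ : ℕ) : ℝ) • c γ := by
        apply Finset.sum_subset hIsub
        intro γ hγ hnot
        have : y γ = 0 := hzero γ hγ hnot
        simp [this]
      rw [e]
      exact part_error 𝒞 c hc p hp0 hpsupp hpsum
    obtain ⟨B₁, h1, h2, h3⟩ := section_blocks hd β hβ R₀ hR₀ hOB I hIcard c
      (fun i hi => hc i (hIsub hi)) y (fun i hi => (Finset.mem_filter.1 hi).2)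
      (fun γ => (qs γ).take (y γ))
      (fun i hi => by
        rw [List.length_take, min_eq_left]
        have := hyle i (hIsub hi)
        omega)
      (fun i hi v hv => hunit i (hIsub hi) v (List.mem_of_mem_take hv))
      η hη0 hη (fun i hi => (hres i (hIsub hi)).take _) he
    obtain ⟨B₂, h4, h5, h6⟩ := ih (fun γ => (qs γ).drop (y γ))
      (fun x hx => hps x (by simp [hx]))
      (fun γ hγ => by
        rw [List.length_drop]
        have := hyle γ hγ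
        omega)
      (fun γ hγ v hv => hunit γ hγ v (List.mem_of_mem_drop hv))
      (fun γ hγ => (hres γ hγ).drop _)
    refine ⟨B₁ ++ B₂, ?_, ?_, ?_⟩
    · have e1 : ∑ i ∈ I, (((qs i).take (y i) : List _) : Multiset (EuclideanSpace ℝ (Fin d)))
          = ∑ γ ∈ 𝒞, (((qs γ).take (y γ) : List _) : Multiset (EuclideanSpace ℝ (Fin d))) := by
        apply Finset.sum_subset hIsub
        intro γ hγ hnot
        simp [hzero γ hγ hnot]
      have e2 : ∑ γ ∈ 𝒞, (((qs γ).take (y γ) : List _) : Multiset (EuclideanSpace ℝ (Fin d)))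
          + ∑ γ ∈ 𝒞, (((qs γ).drop (y γ) : List _) : Multiset (EuclideanSpace ℝ (Fin d)))
          = ∑ γ ∈ 𝒞, ((qs γ : List _) : Multiset _) := by
        rw [← Finset.sum_add_distrib]
        apply Finset.sum_congr rfl
        intro γ _
        rw [Multiset.coe_add, List.take_append_drop]
      have e3 : ∑ γ ∈ 𝒞, (((qs γ).drop ((p :: ps).map (fun p => ⌊p γ⌋₊)).sum : List _) :
            Multiset (EuclideanSpace ℝ (Fin d)))
          = ∑ γ ∈ 𝒞, ((((qs γ).drop (y γ)).drop (ps.map (fun p => ⌊p γ⌋₊)).sum : List _) :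
            Multiset _) := by
        apply Finset.sum_congr rfl
        intro γ _
        rw [List.drop_drop]
        simp [hy]
      rw [e3, List.flatten_append, ← Multiset.coe_add, h1, e1, add_assoc, h4, e2]
    · rw [List.length_append, List.length_cons]
      calc B₁.length + B₂.length
          ≤ 2 * (2 * (2 * d) * R₀ + 1) ^ d + ps.length * (2 * (2 * (2 * d) * R₀ + 1) ^ d) :=
            add_le_add h2 h5
        _ = (ps.length + 1) * (2 * (2 * (2 * d) * R₀ + 1) ^ d) := by ring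
    · intro b hb
      rcases List.mem_append.1 hb with h | h
      · exact h3 b h
      · exact h6 b h

/-- the total fractional mass of the parts -/
lemma fract_total (𝒞 : Finset κ) (ps : List (κ → ℝ))
    (h : ∀ p ∈ ps, (∀ γ, 0 ≤ p γ) ∧ (𝒞.filter (fun γ => 0 < p γ)).card ≤ d + 1) :
    ∑ γ ∈ 𝒞, ((ps.map (fun p => p γ)).sum - (((ps.map (fun p => ⌊p γ⌋₊)).sum : ℕ) : ℝ))
      ≤ (ps.length : ℝ) * ((d:ℝ) + 1) := by
  induction ps with
  | nil => simp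
  | cons p ps ih =>
    obtain ⟨hp0, hsupp⟩ := h p (by simp)
    have h1 := ih (fun x hx => h x (by simp [hx]))
    have e : ∑ γ ∈ 𝒞, (((p :: ps).map (fun p => p γ)).sum
          - ((((p :: ps).map (fun p => ⌊p γ⌋₊)).sum : ℕ) : ℝ))
        = ∑ γ ∈ 𝒞, (p γ - ((⌊p γ⌋₊ : ℕ) : ℝ))
          + ∑ γ ∈ 𝒞, ((ps.map (fun p => p γ)).sum - (((ps.map (fun p => ⌊p γ⌋₊)).sum : ℕ) : ℝ)) := by
      rw [← Finset.sum_add_distrib]
      apply Finset.sum_congr rfl
      intro γ _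
      simp only [List.map_cons, List.sum_cons]
      push_cast
      ring
    rw [e]
    have h2 : ∑ γ ∈ 𝒞, (p γ - ((⌊p γ⌋₊ : ℕ) : ℝ)) ≤ (d:ℝ) + 1 := by
      calc _ ≤ ∑ γ ∈ 𝒞, (if 0 < p γ then (1:ℝ) else 0) := by
            apply Finset.sum_le_sum
            intro γ _
            by_cases hpos : 0 < p γ
            · simp only [hpos, if_true]
              have h4 := Nat.lt_floor_add_one (p γ)
              linarith
            · have h3 : p γ = 0 := le_antisymm (not_lt.1 hpos) (hp0 γ)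
              simp [h3]
        _ = ((𝒞.filter (fun γ => 0 < p γ)).card : ℝ) := by
            rw [← Finset.sum_filter]
            simp
        _ ≤ (d:ℝ) + 1 := by exact_mod_cast hsupp
    have e2 : (((p :: ps).length : ℕ) : ℝ) * ((d:ℝ) + 1) = (ps.length : ℝ) * ((d:ℝ) + 1) + ((d:ℝ) + 1) := by
      rw [List.length_cons]
      push_cast
      ring
    rw [e2]
    linarith

end Vale.Agent.Lib.P262
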