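import Vale.Agent.Lib.P262.Sched

open Finset

namespace Vale.Agent.Lib.P262

variable {ι : Type*} [DecidableEq ι]

lemma cnt_mono' (N T : ℕ) {p q : ℕ} (h : p ≤ q) : cnt p N T ≤ cnt q N T :=
  (monotone_nat_of_le_succ (fun q => cnt_mono q N T)) h

lemma fine_mono (I J : Finset ι) (Qo L K T' : ℕ) (hK : K = Qo * L) (hT' : 0 < T')
    (xold : ℕ → ι → ℕ) (m : ℕ → ι → ℕ) (ord : ℕ → List ι)
    (hold_mono : ∀ t < Qo, ∀ i ∈ I \ J, xold t i ≤ xold (t+1) i)
    (hm_mono : ∀ k < K, ∀ j ∈ J, m k j ≤ m (k+1) j)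
    (hord_count : ∀ k < K, ∀ j ∈ J, (ord k).count j + m k j = m (k+1) j)
    (hord_len : ∀ k < K, 2 * (ord k).length ≤ T') :
    ∀ t < K * T', ∀ i ∈ I, finePath J m ord xold L T' t i ≤ finePath J m ord xold L T' (t+1) i := by
  intro t ht i hi
  obtain ⟨k, p, hk, hp, rfl⟩ := time_cases K T' t hT' ht
  have hkL : k / L < Qo := by
    apply Nat.div_lt_of_lt_mul
    rwa [mul_comm, ← hK]
  by_cases hpT : p + 1 < T'
  · have e : k * T' + p + 1 = k * T' + (p + 1) := by ring
    rw [e]
    by_cases hiJ : i ∈ J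
    · rw [finePath_J J m ord xold L T' k p hp i hiJ, finePath_J J m ord xold L T' k (p+1) hpT i hiJ]
      apply Nat.add_le_add_left
      apply List.Sublist.count_le
      exact (List.take_prefix_take_left (cnt_mono p _ T')).sublist
    · rw [finePath_R J m ord xold L T' k p hp i hiJ, finePath_R J m ord xold L T' k (p+1) hpT i hiJ]
  · have hp1 : p + 1 = T' := by omega
    have e : k * T' + p + 1 = (k + 1) * T' + 0 := by rw [add_mul, ← hp1]; ring
    rw [e]
    by_cases hiJ : i ∈ J
    · rw [finePath_J J m ord xold L T' k p hp i hiJ,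
        finePath_J J m ord xold L T' (k+1) 0 hT' i hiJ, cnt_zero _ _ hT']
      have hp' : p = T' - 1 := by omega
      rw [hp', cnt_last _ T' hT' (hord_len k hk), List.take_length]
      simp only [List.take_zero, List.count_nil, add_zero]
      rw [← hord_count k hk i hiJ]
      omega
    · rw [finePath_R J m ord xold L T' k p hp i hiJ,
        finePath_R J m ord xold L T' (k+1) 0 hT' i hiJ]
      have hi' : i ∈ I \ J := Finset.mem_sdiff.2 ⟨hi, hiJ⟩
      rcases succ_div_cases k L with h | h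
      · rw [h]
      · rw [h]
        exact hold_mono _ hkL i hi'

lemma fine_unit (I J : Finset ι) (hJ : J ⊆ I) (Qo L K T' : ℕ) (hK : K = Qo * L)
    (hT' : 0 < T')
    (xold : ℕ → ι → ℕ) (m : ℕ → ι → ℕ) (ord : ℕ → List ι)
    (hold_unit : ∀ t < Qo, ∑ i ∈ I \ J, xold (t+1) i ≤ ∑ i ∈ I \ J, xold t i + 1)
    (hord_mem : ∀ k < K, ∀ a ∈ ord k, a ∈ J)
    (hord_count : ∀ k < K, ∀ j ∈ J, (ord k).count j + m k j = m (k+1) j)
    (hord_len : ∀ k < K, 2 * (ord k).length ≤ T') :
    ∀ t < K * T', ∑ i ∈ I, finePath J m ord xold L T' (t+1) i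
      ≤ ∑ i ∈ I, finePath J m ord xold L T' t i + 1 := by
  intro t ht
  obtain ⟨k, p, hk, hp, rfl⟩ := time_cases K T' t hT' ht
  have hkL : k / L < Qo := by
    apply Nat.div_lt_of_lt_mul
    rwa [mul_comm, ← hK]
  -- general formulas on the two parts
  have hR : ∀ k' p', p' < T' → ∑ i ∈ I \ J, finePath J m ord xold L T' (k'*T'+p') i
      = ∑ i ∈ I \ J, xold (k'/L) i := by
    intro k' p' hp'
    apply Finset.sum_congr rfl
    intro i hi
    exact finePath_R J m ord xold L T' k' p' hp' i (Finset.mem_sdiff.1 hi).2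
  have hJp : ∀ k' p', k' < K → p' < T' → ∑ i ∈ J, finePath J m ord xold L T' (k'*T'+p') i
      = ∑ i ∈ J, m k' i + ((ord k').take (cnt p' (ord k').length T')).length := by
    intro k' p' hk' hp'
    rw [Finset.sum_congr rfl (fun i hi => finePath_J J m ord xold L T' k' p' hp' i hi),
      Finset.sum_add_distrib,
      sum_count_eq_length J _ (fun a ha => hord_mem k' hk' a (List.mem_of_mem_take ha))]
  rw [← Finset.sum_sdiff hJ, ← Finset.sum_sdiff hJ]
  by_cases hpT : p + 1 < T'
  · have e : k * T' + p + 1 = k * T' + (p + 1) := by ring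
    rw [e, hR k p hp, hR k (p+1) hpT, hJp k p hk hp, hJp k (p+1) hk hpT]
    have h1 := cnt_succ_le p (ord k).length T' hT' (hord_len k hk)
    simp only [List.length_take]
    omega
  · have hp1 : p + 1 = T' := by omega
    have e : k * T' + p + 1 = (k + 1) * T' + 0 := by rw [add_mul, ← hp1]; ring
    rw [e, hR k p hp, hR (k+1) 0 hT']
    have hJ1 : ∑ i ∈ J, finePath J m ord xold L T' ((k+1)*T'+0) i = ∑ i ∈ J, m (k+1) i := by
      apply Finset.sum_congr rfl
      intro i hi
      rw [finePath_J J m ord xold L T' (k+1) 0 hT' i hi, cnt_zero _ _ hT']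
      simp
    have hJ2 : ∑ i ∈ J, finePath J m ord xold L T' (k*T'+p) i = ∑ i ∈ J, m (k+1) i := by
      apply Finset.sum_congr rfl
      intro i hi
      rw [finePath_J J m ord xold L T' k p hp i hi]
      have hp' : p = T' - 1 := by omega
      rw [hp', cnt_last _ T' hT' (hord_len k hk), List.take_length]
      rw [← hord_count k hk i hi]
      omega
    rw [hJ1, hJ2]
    rcases succ_div_cases k L with h | h
    · rw [h]
      omega
    · rw [h]
      have := hold_unit _ hkL
      omega

end Vale.Agent.Lib.P262
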