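import Vale.Agent.Lib.P262.Basic

open Finset

namespace Vale.Agent.Lib.P262

variable {ι : Type*} [DecidableEq ι] {G : Type*} [NormedAddCommGroup G] [InnerProductSpace ℝ G]

lemma round_step (w g : G) (ρ : ℝ) : ∃ m : ℤ, |(m:ℝ) - ρ| ≤ 1 ∧ (∀ z : ℤ, ρ = z → m = z) ∧
    ‖w + ((m:ℝ) - ρ) • g‖^2 ≤ ‖w‖^2 + ‖g‖^2/4 := by
  by_cases hint : ρ = ⌊ρ⌋
  · refine ⟨⌊ρ⌋, ?_, ?_, ?_⟩
    · rw [← hint]; simp
    · intro z hz; rw [hz]; simp
    · rw [← hint]
      simp only [sub_self, zero_smul, add_zero]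
      have : 0 ≤ ‖g‖^2/4 := by positivity
      linarith
  · have hf0 : 0 ≤ ρ - ⌊ρ⌋ := sub_nonneg.2 (Int.floor_le ρ)
    have hf1 : ρ - ⌊ρ⌋ < 1 := by linarith [Int.lt_floor_add_one ρ]
    have hθ0 : 0 < ρ - ⌊ρ⌋ := by
      apply lt_of_le_of_ne hf0
      intro h
      apply hint
      linarith
    set θ := ρ - ⌊ρ⌋ with hθ
    have hnoint : ∀ z : ℤ, ρ ≠ z := by
      intro z hz
      apply hint
      rw [hz]; simp
    have key : (1-θ) * ‖w + (-θ) • g‖^2 + θ * ‖w + (1-θ) • g‖^2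
        = ‖w‖^2 + θ*(1-θ)*‖g‖^2 := by
      rw [norm_add_sq_real, norm_add_sq_real, norm_smul, norm_smul, inner_smul_right,
        inner_smul_right]
      simp only [Real.norm_eq_abs, mul_pow, sq_abs]
      ring
    have hq : θ*(1-θ) ≤ 1/4 := by nlinarith [sq_nonneg (θ - 1/2)]
    have hq' : θ*(1-θ)*‖g‖^2 ≤ ‖g‖^2/4 := by nlinarith [sq_nonneg ‖g‖]
    by_cases hc : ‖w + (-θ) • g‖^2 ≤ ‖w‖^2 + ‖g‖^2/4
    · refine ⟨⌊ρ⌋, ?_, fun z hz => absurd hz (hnoint z), ?_⟩
      · rw [abs_le]; constructor <;> linarith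
      · have : ((⌊ρ⌋ : ℤ) : ℝ) - ρ = -θ := by rw [hθ]; ring
        rw [this]; exact hc
    · push Not at hc
      refine ⟨⌊ρ⌋ + 1, ?_, fun z hz => absurd hz (hnoint z), ?_⟩
      · push_cast
        rw [abs_le]; constructor <;> linarith
      · have : (((⌊ρ⌋ + 1 : ℤ)) : ℝ) - ρ = 1 - θ := by
          rw [hθ]; push_cast; ring
        rw [this]
        have h1 : 0 < 1 - θ := by linarith
        by_contra hcon
        push Not at hcon
        have h2 := mul_lt_mul_of_pos_left hc h1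
        have h3 := mul_lt_mul_of_pos_left hcon hθ0
        nlinarith

lemma round_finset (J : Finset ι) (g : ι → G) (ρ : ι → ℝ) :
    ∃ m : ι → ℤ, (∀ j, |(m j:ℝ) - ρ j| ≤ 1) ∧ (∀ j (z:ℤ), ρ j = z → m j = z) ∧
      ‖∑ j ∈ J, ((m j:ℝ) - ρ j) • g j‖^2 ≤ (∑ j ∈ J, ‖g j‖^2)/4 := by
  induction J using Finset.induction_on with
  | empty =>
    refine ⟨fun j => Classical.choose (round_step (0:G) (0:G) (ρ j)), ?_, ?_, by simp⟩
    · intro j
      exact (Classical.choose_spec (round_step (0:G) (0:G) (ρ j))).1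
    · intro j z hz
      exact (Classical.choose_spec (round_step (0:G) (0:G) (ρ j))).2.1 z hz
  | insert j₀ s hj₀ ih =>
    obtain ⟨m, hm1, hm2, hm3⟩ := ih
    obtain ⟨m₀, h1, h2, h3⟩ := round_step (∑ j ∈ s, ((m j:ℝ) - ρ j) • g j) (g j₀) (ρ j₀)
    refine ⟨Function.update m j₀ m₀, ?_, ?_, ?_⟩
    · intro j
      by_cases h : j = j₀
      · subst h; simpa using h1
      · simpa [Function.update_of_ne h] using hm1 j
    · intro j z hz
      by_cases h : j = j₀
      · subst h; simpa using h2 z hz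
      · simpa [Function.update_of_ne h] using hm2 j z hz
    · rw [Finset.sum_insert hj₀, Finset.sum_insert hj₀]
      have e : ∑ j ∈ s, (((Function.update m j₀ m₀ j : ℤ):ℝ) - ρ j) • g j
          = ∑ j ∈ s, ((m j:ℝ) - ρ j) • g j := by
        apply Finset.sum_congr rfl
        intro j hj
        have : j ≠ j₀ := fun h => hj₀ (h ▸ hj)
        simp [Function.update_of_ne this]
      rw [e]
      simp only [Function.update_self]
      rw [add_comm]
      refine h3.trans ?_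
      linarith

/-- the lower bound property of a finite family -/
def LB (J : Finset ι) (g : ι → G) : Prop :=
  ∀ v : ι → ℝ, ∑ j ∈ J, v j ^ 2 ≤ ‖∑ j ∈ J, v j • g j‖ ^ 2

omit [DecidableEq ι] in
lemma LB.coord {J : Finset ι} {g : ι → G} (h : LB J g) (v : ι → ℝ) {j : ι} (hj : j ∈ J) :
    |v j| ≤ ‖∑ i ∈ J, v i • g i‖ := by
  have h1 : v j ^ 2 ≤ ∑ i ∈ J, v i ^ 2 :=
    Finset.single_le_sum (f := fun i => v i ^ 2) (fun i _ => sq_nonneg _) hj
  have h2 := h v
  exact abs_le_of_sq_le_sq (h1.trans h2) (norm_nonneg _)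

lemma exists_coords {J : Finset ι} {g : ι → G} {x : G}
    (hx : x ∈ Submodule.span ℝ (g '' (J : Set ι))) : ∃ ζ : ι → ℝ, x = ∑ j ∈ J, ζ j • g j := by
  induction hx using Submodule.span_induction with
  | mem x h =>
    obtain ⟨j, hj, rfl⟩ := h
    refine ⟨fun i => if i = j then 1 else 0, ?_⟩
    simp only [ite_smul, one_smul, zero_smul]
    rw [Finset.sum_ite_eq' J j]
    simp [Finset.mem_coe.1 hj]
  | zero => exact ⟨0, by simp⟩
  | add x y _ _ hx hy =>
    obtain ⟨a, rfl⟩ := hx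
    obtain ⟨b, rfl⟩ := hy
    exact ⟨a + b, by simp [add_smul, Finset.sum_add_distrib]⟩
  | smul c x _ hx =>
    obtain ⟨a, rfl⟩ := hx
    exact ⟨fun i => c * a i, by simp [Finset.smul_sum, mul_smul]⟩

/-- rounded checkpoint counts for the fast letters -/
lemma exists_checkpoints
    (J R : Finset ι) (g a : ι → G) (y : ι → ℕ) (K : ℕ) (hK : 0 < K)
    (hLB : LB J g)
    (ha : ∀ i ∈ R, a i ∈ Submodule.span ℝ (g '' (J : Set ι)))
    (hanorm : ∀ i ∈ R, ‖a i‖ ≤ 2)
    (xR : ℕ → ι → ℕ)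
    (hx0 : ∀ i ∈ R, xR 0 i = 0) (hxK : ∀ i ∈ R, xR K i = y i)
    (hxmono : ∀ k < K, ∀ i ∈ R, xR k i ≤ xR (k+1) i)
    (hxunit : ∀ k < K, ∑ i ∈ R, xR (k+1) i ≤ ∑ i ∈ R, xR k i + 1)
    (hsparse : ∑ i ∈ R, y i ≤ K)
    (hfast : K = 1 ∨ ∀ j ∈ J, 6 * K ≤ y j) :
    ∃ m : ℕ → ι → ℕ, (∀ j ∈ J, m 0 j = 0) ∧ (∀ j ∈ J, m K j = y j) ∧
      (∀ k < K, ∀ j ∈ J, m k j ≤ m (k+1) j ∧ ((m (k+1) j : ℝ) - m k j ≤ y j / K + 6)) ∧
      (∀ k ≤ K, ‖∑ j ∈ J, ((m k j : ℝ) - (k/K) * y j) • g j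
          + ∑ i ∈ R, ((xR k i : ℝ) - (k/K) * y i) • a i‖^2 ≤ (∑ j ∈ J, ‖g j‖^2)/4) := by
  have hK' : (0:ℝ) < K := by exact_mod_cast hK
  set Z : ℕ → G := fun k => ∑ i ∈ R, ((xR k i : ℝ) - (k/K) * y i) • a i with hZ
  have hZmem : ∀ k, Z k ∈ Submodule.span ℝ (g '' (J : Set ι)) := by
    intro k
    exact Submodule.sum_mem _ (fun i hi => Submodule.smul_mem _ _ (ha i hi))
  choose ζ hζ using fun k => exists_coords (hZmem k)
  set ρ : ℕ → ι → ℝ := fun k j => (k/K) * y j - ζ k j with hρ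
  choose m' hm1 hm2 hm3 using fun k => round_finset J g (ρ k)
  -- endpoints
  have hZ0 : Z 0 = 0 := by
    simp only [hZ]
    apply Finset.sum_eq_zero
    intro i hi
    simp [hx0 i hi]
  have hZK : Z K = 0 := by
    simp only [hZ]
    apply Finset.sum_eq_zero
    intro i hi
    have : (K:ℝ)/K = 1 := div_self hK'.ne'
    simp [hxK i hi, this]
  have hζ0 : ∀ j ∈ J, ζ 0 j = 0 := by
    intro j hj
    have h := hLB.coord (ζ 0) hj
    rw [← hζ 0, hZ0, norm_zero] at h
    exact abs_nonpos_iff.1 h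
  have hζK : ∀ j ∈ J, ζ K j = 0 := by
    intro j hj
    have h := hLB.coord (ζ K) hj
    rw [← hζ K, hZK, norm_zero] at h
    exact abs_nonpos_iff.1 h
  have hm0 : ∀ j ∈ J, m' 0 j = 0 := by
    intro j hj
    apply hm2 0 j 0
    simp [hρ, hζ0 j hj]
  have hmK : ∀ j ∈ J, m' K j = y j := by
    intro j hj
    apply hm2 K j (y j)
    have : (K:ℝ)/K = 1 := div_self hK'.ne'
    simp [hρ, hζK j hj, this]
  -- increments of the coordinates
  have hZdiff : ∀ k < K, ‖Z (k+1) - Z k‖ ≤ 4 := by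
    intro k hk
    have e : Z (k+1) - Z k = ∑ i ∈ R, (((xR (k+1) i : ℝ) - xR k i) - (1/K) * y i) • a i := by
      simp only [hZ]
      rw [← Finset.sum_sub_distrib]
      apply Finset.sum_congr rfl
      intro i _
      rw [← sub_smul]
      congr 1
      push_cast
      field_simp
      ring
    rw [e]
    calc ‖∑ i ∈ R, (((xR (k+1) i : ℝ) - xR k i) - (1/K) * y i) • a i‖
        ≤ ∑ i ∈ R, ‖(((xR (k+1) i : ℝ) - xR k i) - (1/K) * y i) • a i‖ := norm_sum_le _ _
      _ ≤ ∑ i ∈ R, (((xR (k+1) i : ℝ) - xR k i) + (1/K) * y i) * 2 := by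
          apply Finset.sum_le_sum
          intro i hi
          rw [norm_smul, Real.norm_eq_abs]
          have h1 : (0:ℝ) ≤ (xR (k+1) i : ℝ) - xR k i := by
            have := hxmono k hk i hi
            have : (xR k i : ℝ) ≤ xR (k+1) i := by exact_mod_cast this
            linarith
          have h2 : (0:ℝ) ≤ (1/K) * y i := by positivity
          have h3 : |((xR (k+1) i : ℝ) - xR k i) - (1/K) * y i|
              ≤ ((xR (k+1) i : ℝ) - xR k i) + (1/K) * y i := by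
            rw [abs_le]; constructor <;> linarith
          exact mul_le_mul h3 (hanorm i hi) (norm_nonneg _) (by linarith)
      _ = ((∑ i ∈ R, (xR (k+1) i : ℝ)) - ∑ i ∈ R, (xR k i : ℝ)
            + (1/K) * ∑ i ∈ R, (y i : ℝ)) * 2 := by
          rw [← Finset.sum_mul, Finset.sum_add_distrib, Finset.sum_sub_distrib, Finset.mul_sum]
      _ ≤ 4 := by
          have h1 : (∑ i ∈ R, (xR (k+1) i : ℝ)) ≤ ∑ i ∈ R, (xR k i : ℝ) + 1 := by
            exact_mod_cast hxunit k hk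
          have h2 : (∑ i ∈ R, (y i : ℝ)) ≤ K := by exact_mod_cast hsparse
          have h3 : (1/K : ℝ) * ∑ i ∈ R, (y i : ℝ) ≤ 1 := by
            rw [div_mul_eq_mul_div, one_mul, div_le_one hK']
            exact h2
          linarith
  have hζdiff : ∀ k < K, ∀ j ∈ J, |ζ (k+1) j - ζ k j| ≤ 4 := by
    intro k hk j hj
    have h := hLB.coord (fun i => ζ (k+1) i - ζ k i) hj
    have e : ∑ i ∈ J, (ζ (k+1) i - ζ k i) • g i = Z (k+1) - Z k := by
      rw [hζ (k+1), hζ k, ← Finset.sum_sub_distrib]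
      apply Finset.sum_congr rfl
      intro i _
      rw [sub_smul]
    rw [e] at h
    exact h.trans (hZdiff k hk)
  have hρinc : ∀ k j, ρ (k+1) j - ρ k j = y j / K - (ζ (k+1) j - ζ k j) := by
    intro k j
    simp only [hρ]
    push_cast
    field_simp
    ring
  have hup : ∀ k < K, ∀ j ∈ J, ((m' (k+1) j : ℝ) - m' k j) ≤ y j / K + 6 := by
    intro k hk j hj
    have h1 := abs_le.1 (hm1 (k+1) j)
    have h2 := abs_le.1 (hm1 k j)
    have h3 := abs_le.1 (hζdiff k hk j hj)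
    have e := hρinc k j
    linarith [h1.1, h1.2, h2.1, h2.2, h3.1, h3.2]
  have hlow : ∀ k < K, ∀ j ∈ J, m' k j ≤ m' (k+1) j := by
    intro k hk j hj
    rcases hfast with h1 | h6
    · have hk0 : k = 0 := by omega
      subst hk0
      rw [hm0 j hj]
      have h2 : m' (0+1) j = y j := by
        have := hmK j hj
        rwa [h1] at this
      rw [h2]
      positivity
    · have hreal : (m' k j:ℝ) ≤ m' (k+1) j := by
        have h1 := abs_le.1 (hm1 (k+1) j)
        have h2 := abs_le.1 (hm1 k j)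
        have h3 := abs_le.1 (hζdiff k hk j hj)
        have e := hρinc k j
        have h4 : (6:ℝ) ≤ y j / K := by
          rw [le_div_iff₀ hK']
          exact_mod_cast h6 j hj
        linarith [h1.1, h1.2, h2.1, h2.2, h3.1, h3.2]
      exact_mod_cast hreal
  have hnn : ∀ k ≤ K, ∀ j ∈ J, 0 ≤ m' k j := by
    intro k
    induction k with
    | zero =>
      intro _ j hj
      rw [hm0 j hj]
    | succ k ih =>
      intro hk j hj
      exact (ih (by omega) j hj).trans (hlow k (by omega) j hj)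
  refine ⟨fun k j => (m' k j).toNat, ?_, ?_, ?_, ?_⟩
  · intro j hj
    simp [hm0 j hj]
  · intro j hj
    simp [hmK j hj]
  · intro k hk j hj
    have c1 : (((m' k j).toNat:ℤ)) = m' k j := Int.toNat_of_nonneg (hnn k hk.le j hj)
    have c2 : (((m' (k+1) j).toNat:ℤ)) = m' (k+1) j := Int.toNat_of_nonneg (hnn (k+1) hk j hj)
    have h := hlow k hk j hj
    constructor
    · simp only
      omega
    · simp only
      have c1' : (((m' k j).toNat:ℕ):ℝ) = (m' k j:ℝ) := by exact_mod_cast c1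
      have c2' : (((m' (k+1) j).toNat:ℕ):ℝ) = (m' (k+1) j:ℝ) := by exact_mod_cast c2
      rw [c1', c2']
      exact hup k hk j hj
  · intro k hk
    have e : ∑ j ∈ J, (((m' k j).toNat : ℝ) - (k/K) * y j) • g j
          + ∑ i ∈ R, ((xR k i : ℝ) - (k/K) * y i) • a i
        = ∑ j ∈ J, ((m' k j:ℝ) - ρ k j) • g j := by
      have hzk : ∑ i ∈ R, ((xR k i : ℝ) - (k/K) * y i) • a i = Z k := rfl
      rw [hzk, hζ k, ← Finset.sum_add_distrib]
      apply Finset.sum_congr rfl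
      intro j hj
      have c1 : (((m' k j).toNat:ℤ)) = m' k j := Int.toNat_of_nonneg (hnn k hk j hj)
      have c1' : (((m' k j).toNat:ℕ):ℝ) = (m' k j:ℝ) := by exact_mod_cast c1
      rw [c1', ← add_smul]
      congr 1
      simp only [hρ]
      ring
    simp only
    rw [e]
    exact hm3 k

end Vale.Agent.Lib.P262
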