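import Vale.Agent.Lib.P262.Step

open Finset

namespace Vale.Agent.Lib.P262

variable {ι : Type*} [DecidableEq ι] {G : Type*} [NormedAddCommGroup G] [InnerProductSpace ℝ G]

/-- a monotone lattice path from `0` to `y` with unit steps and small deviation -/
structure Sched (I : Finset ι) (g : ι → G) (y : ι → ℕ) (A : ℝ) (Q : ℕ) (x : ℕ → ι → ℕ) : Prop where
  Qpos : 0 < Q
  Qle : Q ≤ 16 * ∑ i ∈ I, y i + 1
  start : ∀ i ∈ I, x 0 i = 0
  stop : ∀ i ∈ I, x Q i = y i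
  mono : ∀ t < Q, ∀ i ∈ I, x t i ≤ x (t+1) i
  unit : ∀ t < Q, ∑ i ∈ I, x (t+1) i ≤ ∑ i ∈ I, x t i + 1
  dev : ∀ t < Q, ∀ τ : ℝ, (t:ℝ)/Q ≤ τ → τ ≤ ((t:ℝ)+1)/Q →
    ‖∑ i ∈ I, ((x t i : ℝ) - τ * y i) • g i‖^2 ≤ I.card * A^2

lemma time_div (k p T : ℕ) (hp : p < T) : (k*T+p)/T = k := by
  rw [Nat.add_comm, Nat.add_mul_div_right _ _ (by omega), Nat.div_eq_of_lt hp, zero_add]

lemma time_mod (k p T : ℕ) (hp : p < T) : (k*T+p)%T = p := by
  rw [Nat.add_comm, Nat.add_mul_mod_self_right, Nat.mod_eq_of_lt hp]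

/-- the arithmetic choice of the number of steps -/
lemma choose_K (J R : Finset ι) (y : ι → ℕ) (Q : ℕ) (hQ0 : 0 < Q)
    (hQle : Q ≤ 16 * ∑ i ∈ R, y i + 1) (hJne : J.Nonempty)
    (hyJ : ∀ j ∈ J, 1 ≤ y j) (hyR : ∀ i ∈ R, 1 ≤ y i)
    (hgap : ∀ j ∈ J, 102 * ∑ i ∈ R, y i ≤ y j)
    (hratio : ∀ j ∈ J, ∑ i ∈ J, y i ≤ 103 ^ J.card * y j) :
    ∃ L K : ℕ, 0 < L ∧ K = Q * L ∧ (K = 1 ∨ ∀ j ∈ J, 6 * K ≤ y j) ∧ ∑ i ∈ R, y i ≤ K ∧
      ∑ i ∈ J, y i ≤ 12 * 103 ^ J.card * K ∧ K * (1 + 6 * J.card) ≤ 7 * ∑ i ∈ J, y i := by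
  obtain ⟨jm, hjm, hmin⟩ := Finset.exists_min_image J y hJne
  set ym := y jm with hym
  have hS1 : ym ≤ ∑ i ∈ J, y i := Finset.single_le_sum (f := y) (fun _ _ => Nat.zero_le _) hjm
  have hS2 : J.card ≤ ∑ i ∈ J, y i := by
    simpa using Finset.card_nsmul_le_sum J y 1 hyJ
  have hcard : 1 ≤ J.card := Finset.card_pos.2 hJne
  by_cases h : 6 * Q ≤ ym
  · set L := ym / (6 * Q) with hL
    have hLpos : 0 < L := Nat.div_pos h (by omega)
    have h6K : 6 * (Q * L) ≤ ym := by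
      have := Nat.mul_div_le ym (6 * Q)
      calc 6 * (Q * L) = 6 * Q * (ym / (6 * Q)) := by rw [hL]; ring
        _ ≤ ym := this
    have hlt : ym < 12 * (Q * L) := by
      have h1 := Nat.lt_mul_div_succ ym (show 0 < 6 * Q by omega)
      have h2 : 6 * Q * (ym / (6 * Q) + 1) ≤ 12 * (Q * L) := by
        rw [← hL]
        nlinarith
      omega
    refine ⟨L, Q * L, hLpos, rfl, Or.inr ?_, ?_, ?_, ?_⟩
    · intro j hj
      exact h6K.trans (hmin j hj)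
    · have := hgap jm hjm
      omega
    · calc ∑ i ∈ J, y i ≤ 103 ^ J.card * ym := hratio jm hjm
        _ ≤ 103 ^ J.card * (12 * (Q * L)) := Nat.mul_le_mul_left _ hlt.le
        _ = 12 * 103 ^ J.card * (Q * L) := by ring
    · have h3 : J.card • (6 * (Q * L)) ≤ ∑ i ∈ J, y i :=
        Finset.card_nsmul_le_sum J y _ (fun j hj => h6K.trans (hmin j hj))
      simp only [smul_eq_mul] at h3
      have h4 : Q * L ≤ ∑ i ∈ J, y i := by omega
      nlinarith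
  · push Not at h
    have hR0 : ∑ i ∈ R, y i = 0 := by
      by_contra hne
      have h1 : 1 ≤ ∑ i ∈ R, y i := Nat.one_le_iff_ne_zero.2 hne
      have h2 := hgap jm hjm
      omega
    have hQ1 : Q = 1 := by omega
    refine ⟨1, 1, by norm_num, by simp [hQ1], Or.inl rfl, by omega, ?_, ?_⟩
    · have h3 := hratio jm hjm
      have h4 : ym ≤ 12 := by omega
      calc ∑ i ∈ J, y i ≤ 103 ^ J.card * ym := h3
        _ ≤ 103 ^ J.card * 12 := Nat.mul_le_mul_left _ h4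
        _ = 12 * 103 ^ J.card * 1 := by ring
    · omega

/-- the fine path obtained from the old path and the step orders -/
def finePath (J : Finset ι) (m : ℕ → ι → ℕ) (ord : ℕ → List ι) (xold : ℕ → ι → ℕ) (L T' : ℕ) :
    ℕ → ι → ℕ :=
  fun t i => if i ∈ J then
      m (t/T') i + ((ord (t/T')).take (cnt (t%T') (ord (t/T')).length T')).count i
    else xold ((t/T')/L) i

lemma finePath_J (J : Finset ι) (m : ℕ → ι → ℕ) (ord : ℕ → List ι) (xold : ℕ → ι → ℕ) (L T' k p : ℕ)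
    (hp : p < T') (i : ι) (hi : i ∈ J) :
    finePath J m ord xold L T' (k*T'+p) i
      = m k i + ((ord k).take (cnt p (ord k).length T')).count i := by
  simp [finePath, hi, time_div k p T' hp, time_mod k p T' hp]

lemma finePath_R (J : Finset ι) (m : ℕ → ι → ℕ) (ord : ℕ → List ι) (xold : ℕ → ι → ℕ) (L T' k p : ℕ)
    (hp : p < T') (i : ι) (hi : i ∉ J) :
    finePath J m ord xold L T' (k*T'+p) i = xold (k/L) i := by
  simp [finePath, hi, time_div k p T' hp]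

lemma succ_div_cases (k L : ℕ) : (k+1)/L = k/L ∨ (k+1)/L = k/L + 1 := by
  rw [Nat.succ_div]
  split_ifs <;> simp

/-- decompose a time -/
lemma time_cases (K T' t : ℕ) (hT' : 0 < T') (ht : t < K * T') :
    ∃ k p, k < K ∧ p < T' ∧ t = k*T'+p := by
  refine ⟨t/T', t%T', ?_, Nat.mod_lt _ hT', ?_⟩
  · exact Nat.div_lt_of_lt_mul (by rwa [mul_comm] at ht)
  · have := Nat.div_add_mod t T'
    rw [mul_comm]
    exact this.symm

end Vale.Agent.Lib.P262
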