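import Vale.Agent.Lib.P262.Inner

open Finset

namespace Vale.Agent.Lib.P262

variable {ι : Type*} [DecidableEq ι] {G : Type*} [NormedAddCommGroup G] [InnerProductSpace ℝ G]

omit [DecidableEq ι] in
lemma sum_coef (S : Finset ι) (α y : ι → ℝ) (b : ℝ) (v : ι → G) :
    ∑ i ∈ S, (α i - b * y i) • v i = ∑ i ∈ S, α i • v i - b • ∑ i ∈ S, y i • v i := by
  rw [Finset.smul_sum, ← Finset.sum_sub_distrib]
  apply Finset.sum_congr rfl
  intro i _
  rw [sub_smul, mul_smul]

/-- Pythagoras for an orthogonal projection -/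
lemma pyth (X : Submodule ℝ G) [X.HasOrthogonalProjection] (z : G) :
    ‖z‖ ^ 2 = ‖X.starProjection z‖ ^ 2 + ‖z - X.starProjection z‖ ^ 2 := by
  have h0 : inner ℝ (z - X.starProjection z) (X.starProjection z) = 0 :=
    Submodule.starProjection_inner_eq_zero _ _ (Submodule.starProjection_apply_mem _ _)
  have e : z = (z - X.starProjection z) + X.starProjection z := by abel
  have := norm_add_sq_real (z - X.starProjection z) (X.starProjection z)
  rw [← e, h0] at this
  rw [this]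
  ring

lemma proj_norm_le (X : Submodule ℝ G) [X.HasOrthogonalProjection] (z : G) :
    ‖X.starProjection z‖ ≤ ‖z‖ := by
  have h := pyth X z
  exact (sq_le_sq₀ (norm_nonneg _) (norm_nonneg _)).1 (by nlinarith [sq_nonneg ‖z - X.starProjection z‖])

lemma sub_proj_norm_le (X : Submodule ℝ G) [X.HasOrthogonalProjection] (z : G) :
    ‖z - X.starProjection z‖ ≤ ‖z‖ := by
  have h := pyth X z
  exact (sq_le_sq₀ (norm_nonneg _) (norm_nonneg _)).1 (by nlinarith [sq_nonneg ‖X.starProjection z‖])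

omit [DecidableEq ι] in
lemma LB.mono {I J : Finset ι} {g : ι → G} (h : LB I g) (hJ : J ⊆ I) : LB J g := by
  classical
  intro v
  set v' : ι → ℝ := fun i => if i ∈ J then v i else 0 with hv'
  have h1 := h v'
  have e1 : ∑ i ∈ I, v' i ^ 2 = ∑ i ∈ J, v i ^ 2 := by
    symm
    have : ∑ i ∈ J, v i ^ 2 = ∑ i ∈ J, v' i ^ 2 :=
      Finset.sum_congr rfl (fun i hi => by simp [hv', hi])
    rw [this]
    apply Finset.sum_subset hJ
    intro i _ hi
    simp [hv', hi]
  have e2 : ∑ i ∈ I, v' i • g i = ∑ i ∈ J, v i • g i := by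
    symm
    have : ∑ i ∈ J, v i • g i = ∑ i ∈ J, v' i • g i :=
      Finset.sum_congr rfl (fun i hi => by simp [hv', hi])
    rw [this]
    apply Finset.sum_subset hJ
    intro i _ hi
    simp [hv', hi]
  rw [e1, e2] at h1
  exact h1

/-- the lower bound persists after projecting away the span of `J` -/
lemma LB.proj {I J : Finset ι} {g : ι → G} (h : LB I g) (hJ : J ⊆ I)
    (X : Submodule ℝ G) [X.HasOrthogonalProjection] (hX : X = Submodule.span ℝ (g '' (J : Set ι))) :
    LB (I \ J) (fun i => g i - X.starProjection (g i)) := by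
  intro v
  set u : G := ∑ i ∈ I \ J, v i • g i with hu
  have hPu : X.starProjection u ∈ Submodule.span ℝ (g '' (J : Set ι)) := by
    rw [← hX]; exact Submodule.starProjection_apply_mem _ _
  obtain ⟨ζ, hζ⟩ := exists_coords hPu
  set v' : ι → ℝ := fun i => if i ∈ J then - ζ i else v i with hv'
  have h1 := h v'
  have e1 : ∑ i ∈ I \ J, v i • (g i - X.starProjection (g i)) = u - X.starProjection u := by
    rw [hu, map_sum, ← Finset.sum_sub_distrib]
    apply Finset.sum_congr rfl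
    intro i _
    rw [map_smul, smul_sub]
  have e2 : ∑ i ∈ I, v' i • g i = u - X.starProjection u := by
    rw [← Finset.sum_sdiff hJ, hζ, hu, sub_eq_add_neg, ← Finset.sum_neg_distrib]
    congr 1
    · apply Finset.sum_congr rfl
      intro i hi
      have : i ∉ J := (Finset.mem_sdiff.1 hi).2
      simp [hv', this]
    · apply Finset.sum_congr rfl
      intro i hi
      simp [hv', hi]
  have e3 : ∑ i ∈ I \ J, v i ^ 2 ≤ ∑ i ∈ I, v' i ^ 2 := by
    rw [← Finset.sum_sdiff hJ]
    have : ∑ i ∈ I \ J, v' i ^ 2 = ∑ i ∈ I \ J, v i ^ 2 := by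
      apply Finset.sum_congr rfl
      intro i hi
      have : i ∉ J := (Finset.mem_sdiff.1 hi).2
      simp [hv', this]
    rw [this]
    have : 0 ≤ ∑ i ∈ J, v' i ^ 2 := Finset.sum_nonneg (fun i _ => sq_nonneg _)
    linarith
  rw [e1]
  rw [e2] at h1
  exact e3.trans h1

/-- splitting the norm along `X` -/
lemma norm_split (I J : Finset ι) (hJ : J ⊆ I) (g : ι → G) (c : ι → ℝ)
    (X : Submodule ℝ G) [X.HasOrthogonalProjection] (hgX : ∀ j ∈ J, g j ∈ X) :
    ‖∑ i ∈ I, c i • g i‖ ^ 2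
      = ‖∑ j ∈ J, c j • g j + ∑ i ∈ I \ J, c i • X.starProjection (g i)‖ ^ 2
        + ‖∑ i ∈ I \ J, c i • (g i - X.starProjection (g i))‖ ^ 2 := by
  have h := pyth X (∑ i ∈ I, c i • g i)
  have e1 : X.starProjection (∑ i ∈ I, c i • g i)
      = ∑ j ∈ J, c j • g j + ∑ i ∈ I \ J, c i • X.starProjection (g i) := by
    rw [map_sum, ← Finset.sum_sdiff hJ, add_comm]
    congr 1
    · apply Finset.sum_congr rfl
      intro j hj
      rw [map_smul, Submodule.starProjection_eq_self_iff.2 (hgX j hj)]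
    · apply Finset.sum_congr rfl
      intro i _
      rw [map_smul]
  have e2 : ∑ i ∈ I, c i • g i - X.starProjection (∑ i ∈ I, c i • g i)
      = ∑ i ∈ I \ J, c i • (g i - X.starProjection (g i)) := by
    rw [map_sum, ← Finset.sum_sub_distrib, ← Finset.sum_sdiff hJ]
    have : ∑ j ∈ J, (c j • g j - X.starProjection (c j • g j)) = 0 := by
      apply Finset.sum_eq_zero
      intro j hj
      rw [map_smul, Submodule.starProjection_eq_self_iff.2 (hgX j hj), sub_self]
    rw [this, add_zero]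
    apply Finset.sum_congr rfl
    intro i _
    rw [map_smul, smul_sub]
  rw [e2, e1] at h
  exact h

/-- the interpolation identity inside one step and the resulting norm bound -/
lemma xpart_bound (Dk Dk' C Y E U W : G) (a b τ s μ ε : ℝ)
    (hDk : Dk = C - a • Y) (hDk' : Dk' = C + U + W - b • Y)
    (hτ : τ = a + s * (b - a)) (hs0 : 0 ≤ s) (hs1 : s ≤ 1)
    (h1 : ‖Dk‖ ≤ μ) (h2 : ‖Dk'‖ ≤ μ) (h3 : ‖E - s • U‖ ≤ ε) (h4 : ‖W‖ ≤ 2) :
    ‖C + E - τ • Y‖ ≤ μ + ε + 2 := by
  have e : C + E - τ • Y = (1 - s) • Dk + s • Dk' + (E - s • U) - s • W := by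
    rw [hDk, hDk', hτ]
    module
  rw [e]
  have h5 : ‖(1 - s) • Dk‖ ≤ (1 - s) * μ := by
    rw [norm_smul, Real.norm_eq_abs, abs_of_nonneg (by linarith)]
    exact mul_le_mul_of_nonneg_left h1 (by linarith)
  have h6 : ‖s • Dk'‖ ≤ s * μ := by
    rw [norm_smul, Real.norm_eq_abs, abs_of_nonneg hs0]
    exact mul_le_mul_of_nonneg_left h2 hs0
  have h7 : ‖s • W‖ ≤ 2 := by
    rw [norm_smul, Real.norm_eq_abs, abs_of_nonneg hs0]
    nlinarith [norm_nonneg W]
  calc ‖(1 - s) • Dk + s • Dk' + (E - s • U) - s • W‖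
      ≤ ‖(1 - s) • Dk + s • Dk' + (E - s • U)‖ + ‖s • W‖ := norm_sub_le _ _
    _ ≤ ‖(1 - s) • Dk‖ + ‖s • Dk'‖ + ‖E - s • U‖ + ‖s • W‖ := by
        gcongr
        exact norm_add₃_le
    _ ≤ μ + ε + 2 := by nlinarith

/-- the in-step estimate for the released letters -/
lemma release_bound (ord : List ι) (J : Finset ι) (g : ι → G) (u : ι → ℕ) (T' p : ℕ) (T s : ℝ)
    (hmem : ∀ a ∈ ord, a ∈ J) (hcount : ∀ j ∈ J, ord.count j = u j)
    (hnorm : ∀ j ∈ J, ‖g j‖ ≤ 2)
    (hT' : 0 < T') (hN : 2 * ord.length ≤ T') (hp : p < T')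
    (hs1 : (p:ℝ) / T' ≤ s) (hs2 : s ≤ ((p:ℝ) + 1) / T')
    (hord : ∀ q : ℕ, q ≤ ord.length →
        ‖((ord.take q).map g).sum - ((q:ℝ) / ord.length) • ∑ j ∈ J, (u j:ℝ) • g j‖ ≤ 4 * T) :
    ‖∑ j ∈ J, (((ord.take (cnt p ord.length T')).count j : ℕ) : ℝ) • g j
        - s • ∑ j ∈ J, (u j:ℝ) • g j‖ ≤ 4 * T + 2 := by
  set N := ord.length with hNdef
  set c := cnt p N T' with hc
  have hcle : c ≤ N := by
    have hmono : Monotone (fun q => cnt q N T') := monotone_nat_of_le_succ (fun q => cnt_mono q N T')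
    have : cnt p N T' ≤ cnt (T' - 1) N T' := hmono (by omega)
    rwa [cnt_last N T' hT' hN] at this
  set U : G := ∑ j ∈ J, (u j:ℝ) • g j with hU
  have hsumU : ∑ j ∈ J, u j = N := by
    rw [hNdef, ← sum_count_eq_length J ord hmem]
    exact (Finset.sum_congr rfl hcount).symm
  have hUnorm : ‖U‖ ≤ 2 * N := by
    calc ‖U‖ ≤ ∑ j ∈ J, ‖(u j:ℝ) • g j‖ := norm_sum_le _ _
      _ ≤ ∑ j ∈ J, (u j : ℝ) * 2 := by
          apply Finset.sum_le_sum
          intro j hj
          rw [norm_smul, Real.norm_eq_abs, abs_of_nonneg (Nat.cast_nonneg _)]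
          exact mul_le_mul_of_nonneg_left (hnorm j hj) (Nat.cast_nonneg _)
      _ = 2 * N := by
          rw [← Finset.sum_mul, ← hsumU]
          push_cast
          ring
  have hE : ∑ j ∈ J, (((ord.take c).count j : ℕ) : ℝ) • g j = ((ord.take c).map g).sum := by
    rw [list_sum_eq_count J (ord.take c) (fun a ha => hmem a (List.mem_of_mem_take ha)) g]
    apply Finset.sum_congr rfl
    intro j _
    rw [Nat.cast_smul_eq_nsmul]
  rw [hE]
  have h1 := hord c hcle
  have hT0 : 0 ≤ 4 * T := (norm_nonneg _).trans h1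
  rcases Nat.eq_zero_or_pos N with h0 | hpos
  · have hU0 : U = 0 := by
      have := hUnorm
      rw [h0] at this
      simpa using this
    have hc0 : c = 0 := by omega
    simp only [hU0, smul_zero, sub_zero, hc0, List.take_zero, List.map_nil, List.sum_nil, norm_zero]
    linarith
  · have hN' : (0:ℝ) < N := by exact_mod_cast hpos
    have h2 : |(c:ℝ) - s * N| ≤ 1 := cnt_real p N T' hT' hN s hs1 hs2
    have e : ((ord.take c).map g).sum - s • U
        = (((ord.take c).map g).sum - ((c:ℝ) / N) • U) + ((c:ℝ) / N - s) • U := by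
      rw [sub_smul]
      abel
    rw [e]
    have h3 : ‖((c:ℝ) / N - s) • U‖ ≤ 2 := by
      rw [norm_smul, Real.norm_eq_abs]
      have e2 : (c:ℝ) / N - s = ((c:ℝ) - s * N) / N := by
        field_simp
      rw [e2, abs_div, abs_of_pos hN']
      calc |(c:ℝ) - s * N| / N * ‖U‖ ≤ 1 / N * (2 * N) := by
            gcongr
        _ = 2 := by field_simp
    calc _ ≤ ‖((ord.take c).map g).sum - ((c:ℝ) / N) • U‖ + ‖((c:ℝ) / N - s) • U‖ := norm_add_le _ _
      _ ≤ 4 * T + 2 := by linarith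

end Vale.Agent.Lib.P262
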