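import Vale.Agent.Lib.P262.Parts
import Vale.Agent.Lib.P262.Cone

open Finset

namespace Vale.Agent.Lib.P262

lemma flatten_singletons {α : Type*} (Y : List α) : (Y.map (fun v => [v])).flatten = Y := by
  induction Y with
  | nil => rfl
  | cons a Y ih => simp only [List.map_cons, List.flatten_cons, ih, List.singleton_append]

lemma filter_decomp {α κ : Type*} [DecidableEq κ] (f : α → κ) (𝒞 : Finset κ) :
    ∀ l : List α, (∀ a ∈ l, f a ∈ 𝒞) →
      (l : Multiset α) = ∑ γ ∈ 𝒞, ((l.filter (fun a => f a = γ) : List α) : Multiset α) := by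
  intro l
  induction l with
  | nil => simp
  | cons a l ih =>
    intro h
    have h1 := ih (fun x hx => h x (by simp [hx]))
    have hfa : f a ∈ 𝒞 := h a (by simp)
    have e : ∀ γ, (((a :: l).filter (fun x => f x = γ) : List α) : Multiset α)
        = ((l.filter (fun x => f x = γ) : List α) : Multiset α)
          + (if f a = γ then ({a} : Multiset α) else 0) := by
      intro γ
      by_cases hγ : f a = γ
      · simp [hγ, Multiset.singleton_add, add_comm]
      · simp [hγ]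
    rw [Finset.sum_congr rfl (fun γ _ => e γ), Finset.sum_add_distrib, ← h1, Finset.sum_ite_eq,
      if_pos hfa, ← Multiset.cons_coe, add_comm, Multiset.singleton_add]

variable {E : Type*} [NormedAddCommGroup E] [NormedSpace ℝ E]

lemma smul_sub_sum (Y : List E) (v : E) (δ : ℝ) (h : ∀ u ∈ Y, ‖v - u‖ ≤ δ) :
    ‖(Y.length : ℝ) • v - Y.sum‖ ≤ Y.length * δ := by
  induction Y with
  | nil => simp
  | cons a Y ih =>
    have h1 := ih (fun u hu => h u (by simp [hu]))
    have h2 := h a (by simp)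
    have e : (((a :: Y).length : ℕ) : ℝ) • v - (a :: Y).sum
        = (v - a) + ((Y.length : ℝ) • v - Y.sum) := by
      simp only [List.length_cons, List.sum_cons]
      push_cast
      rw [add_smul, one_smul]
      abel
    rw [e]
    calc _ ≤ ‖v - a‖ + ‖(Y.length : ℝ) • v - Y.sum‖ := norm_add_le _ _
      _ ≤ ((a :: Y).length : ℝ) * δ := by
          simp only [List.length_cons]
          push_cast
          linarith

lemma map_residual_sum (Y : List E) (c : E) (a : ℝ) :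
    (Y.map (fun v => a • (v - c))).sum = a • (Y.sum - (Y.length : ℝ) • c) := by
  induction Y with
  | nil => simp
  | cons b Y ih =>
    simp only [List.map_cons, List.sum_cons, ih, List.length_cons]
    push_cast
    rw [add_smul, one_smul]
    module

/-- the queue of one colour -/
lemma color_queue {d : ℕ} (X : List (EuclideanSpace ℝ (Fin d))) (hX : X ≠ [])
    (hunit : ∀ v ∈ X, ‖v‖ ≤ 1) (δ : ℝ) (hδ : 0 < δ) (hclose : ∀ v ∈ X, ∀ u ∈ X, ‖v - u‖ ≤ δ) :
    ‖(1 / (X.length : ℝ)) • X.sum‖ ≤ 1 ∧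
    ∃ Q : List (EuclideanSpace ℝ (Fin d)), Q.Perm X ∧ ∀ k,
      ‖(Q.take k).sum - ((Q.take k).length : ℝ) • ((1 / (X.length : ℝ)) • X.sum)‖ ≤ δ * d := by
  have hlen : 0 < X.length := List.length_pos_iff.2 hX
  have hlen' : (0:ℝ) < X.length := by exact_mod_cast hlen
  set c := (1 / (X.length : ℝ)) • X.sum with hc
  have hnc : (X.length : ℝ) • c = X.sum := by
    rw [hc, smul_smul, mul_one_div_cancel hlen'.ne', one_smul]
  refine ⟨?_, ?_⟩
  · rw [hc, norm_smul, Real.norm_eq_abs, abs_of_pos (by positivity), div_mul_eq_mul_div, one_mul,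
      div_le_one hlen']
    exact norm_list_sum_le_length X hunit
  · have hres : ∀ v ∈ X, ‖v - c‖ ≤ δ := by
      intro v hv
      have h1 := smul_sub_sum X v δ (hclose v hv)
      have e : v - c = (1 / (X.length : ℝ)) • ((X.length : ℝ) • v - X.sum) := by
        rw [smul_sub, smul_smul, one_div_mul_cancel hlen'.ne', one_smul]
      rw [e, norm_smul, Real.norm_eq_abs, abs_of_pos (by positivity), div_mul_eq_mul_div, one_mul,
        div_le_iff₀ hlen']
      linarith
    have hsum0 : (X.map (fun v => δ⁻¹ • (v - c))).sum = 0 := by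
      rw [map_residual_sum, hnc, sub_self, smul_zero]
    obtain ⟨l', hperm, hpref⟩ := gs_bound (X.map (fun v => δ⁻¹ • (v - c)))
      (by
        intro w hw
        obtain ⟨v, hv, rfl⟩ := List.mem_map.1 hw
        rw [norm_smul, Real.norm_eq_abs, abs_of_pos (by positivity), inv_mul_le_iff₀ hδ]
        simpa using hres v hv)
      hsum0
    obtain ⟨Q, hQ, hmap⟩ := exists_perm_map _ X l' hperm
    refine ⟨Q, hQ, ?_⟩
    intro k
    have h1 := hpref k
    rw [← hmap, ← List.map_take, map_residual_sum, norm_smul, Real.norm_eq_abs,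
      abs_of_pos (by positivity), inv_mul_le_iff₀ hδ] at h1
    exact h1

lemma floor_sum_le {κ : Type*} (ps : List (κ → ℝ)) (γ : κ) (h : ∀ p ∈ ps, 0 ≤ p γ) :
    (((ps.map (fun p => ⌊p γ⌋₊)).sum : ℕ) : ℝ) ≤ (ps.map (fun p => p γ)).sum := by
  induction ps with
  | nil => simp
  | cons p ps ih =>
    have h1 := ih (fun x hx => h x (by simp [hx]))
    have h2 := Nat.floor_le (h p (by simp))
    simp only [List.map_cons, List.sum_cons]
    rw [Nat.cast_add]
    linarith

/-- **The reduction**: every zero-sum family splits into few blocks of small sum and small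
internal excursion. -/
theorem exists_blocks {d : ℕ} (hd : 1 ≤ d) (β : ℝ) (hβ : 0 ≤ β) (R₀ : ℕ)
    (hR₀ : (5 + 4 * β) * Real.sqrt ((d:ℝ) + 1) + 1/4 + ((d:ℝ) + 1) ≤ R₀)
    (hOB : ∀ r, 1 ≤ r → r ≤ d + 1 → OrderBound r (20 * r * 103 ^ r) (β * Real.sqrt r))
    (l : List (EuclideanSpace ℝ (Fin d))) (hl1 : ∀ v ∈ l, ‖v‖ ≤ 1) (hl0 : l.sum = 0) :
    ∃ blocks : List (List (EuclideanSpace ℝ (Fin d))),
      ((blocks.flatten : List _) : Multiset (EuclideanSpace ℝ (Fin d))) = (l : Multiset _) ∧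
      blocks.length ≤ (2 * (8 * d ^ 2 * (d + 1)) * 1 + 1) ^ d * (2 * (2 * (2 * d) * R₀ + 1) ^ d + d + 1) ∧
      ∀ b ∈ blocks, ‖b.sum‖ ≤ 1 ∧
        ∀ j, ‖(b.take j).sum‖ ≤ 4 * ((5 + 4 * β) * Real.sqrt ((d:ℝ) + 1) + 1/4) + 1 := by
  classical
  set L := 8 * d ^ 2 * (d + 1) with hL
  have hLpos : 0 < L := by rw [hL]; positivity
  have hd' : (0:ℝ) < d := by exact_mod_cast hd
  set col := cellFn d L with hcol
  set 𝒞 : Finset (Fin d → ℤ) := (l.map col).toFinset with h𝒞
  set X : (Fin d → ℤ) → List (EuclideanSpace ℝ (Fin d)) := fun γ => l.filter (fun v => col v = γ) with hX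
  set δ : ℝ := 1 / (8 * d * ((d:ℝ) + 1)) with hδ
  have hδpos : 0 < δ := by rw [hδ]; positivity
  have hXne : ∀ γ ∈ 𝒞, X γ ≠ [] := by
    intro γ hγ
    obtain ⟨v, hv, rfl⟩ := List.mem_map.1 (List.mem_toFinset.1 hγ)
    intro h
    have : v ∈ X (col v) := List.mem_filter.2 ⟨hv, by simp⟩
    rw [h] at this
    simp at this
  have hXclose : ∀ γ, ∀ v ∈ X γ, ∀ u ∈ X γ, ‖v - u‖ ≤ δ := by
    intro γ v hv u hu
    have h1 : col v = γ := by simpa using (List.mem_filter.1 hv).2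
    have h2 : col u = γ := by simpa using (List.mem_filter.1 hu).2
    refine (cell_close hLpos (h1.trans h2.symm)).trans (le_of_eq ?_)
    rw [hL, hδ]
    push_cast
    field_simp
  have hXunit : ∀ γ, ∀ v ∈ X γ, ‖v‖ ≤ 1 := fun γ v hv => hl1 v (List.mem_filter.1 hv).1
  set c : (Fin d → ℤ) → EuclideanSpace ℝ (Fin d) := fun γ => (1 / ((X γ).length : ℝ)) • (X γ).sum with hc
  have hQ : ∀ γ, γ ∈ 𝒞 → ∃ Q : List (EuclideanSpace ℝ (Fin d)), Q.Perm (X γ) ∧ ∀ k,
      ‖(Q.take k).sum - ((Q.take k).length : ℝ) • c γ‖ ≤ δ * d :=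
    fun γ hγ => (color_queue (X γ) (hXne γ hγ) (hXunit γ) δ hδpos (hXclose γ)).2
  choose! Q hQperm hQpref using hQ
  have hcunit : ∀ γ ∈ 𝒞, ‖c γ‖ ≤ 1 :=
    fun γ hγ => (color_queue (X γ) (hXne γ hγ) (hXunit γ) δ hδpos (hXclose γ)).1
  set η : ℝ := 2 * (δ * d) with hη
  have hη0 : 0 ≤ η := by positivity
  have hηd : ((d:ℝ) + 1) * η ≤ 1/4 := by
    apply le_of_eq
    rw [hη, hδ]
    field_simp
    norm_num
  have hRes : ∀ γ ∈ 𝒞, Res (Q γ) (c γ) η := fun γ hγ => res_of_prefix (hQpref γ hγ)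
  have hlmem : ∀ a ∈ l, col a ∈ 𝒞 := fun a ha => List.mem_toFinset.2 (List.mem_map.2 ⟨a, ha, rfl⟩)
  have hdecomp : (l : Multiset (EuclideanSpace ℝ (Fin d)))
      = ∑ γ ∈ 𝒞, ((X γ : List _) : Multiset (EuclideanSpace ℝ (Fin d))) :=
    filter_decomp col 𝒞 l hlmem
  have hQcoe : ∑ γ ∈ 𝒞, ((Q γ : List _) : Multiset (EuclideanSpace ℝ (Fin d)))
      = (l : Multiset (EuclideanSpace ℝ (Fin d))) := by
    rw [hdecomp]
    apply Finset.sum_congr rfl
    intro γ hγ
    exact Multiset.coe_eq_coe.2 (hQperm γ hγ)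
  have hQlen : ∀ γ ∈ 𝒞, (Q γ).length = (X γ).length := fun γ hγ => (hQperm γ hγ).length_eq
  have hvpos : ∀ γ ∈ 𝒞, 0 < ((Q γ).length : ℝ) := by
    intro γ hγ
    rw [hQlen γ hγ]
    have := List.length_pos_iff.2 (hXne γ hγ)
    exact_mod_cast this
  have hvsum : ∑ γ ∈ 𝒞, ((Q γ).length : ℝ) • c γ = 0 := by
    have h1 : ∀ γ ∈ 𝒞, ((Q γ).length : ℝ) • c γ = (X γ).sum := by
      intro γ hγ
      have h2 := hvpos γ hγ
      rw [hQlen γ hγ] at h2 ⊢
      simp only [hc]
      rw [smul_smul, mul_one_div_cancel h2.ne', one_smul]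
    rw [Finset.sum_congr rfl h1, ← msum, ← hdecomp, Multiset.sum_coe]
    exact hl0
  obtain ⟨ps, hpslen, hps, hpssum⟩ := exists_peel c _ 𝒞 (fun γ => ((Q γ).length : ℝ)) rfl hvpos hvsum
  have hfloor : ∀ γ ∈ 𝒞, (ps.map (fun p => ⌊p γ⌋₊)).sum ≤ (Q γ).length := by
    intro γ hγ
    have h1 := floor_sum_le ps γ (fun p hp => (hps p hp).1 γ)
    rw [hpssum γ hγ] at h1
    exact_mod_cast h1
  have hQunit : ∀ γ ∈ 𝒞, ∀ v ∈ Q γ, ‖v‖ ≤ 1 := fun γ hγ v hv =>
    hXunit γ v ((hQperm γ hγ).subset hv)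
  obtain ⟨B₁, hB1, hB2, hB3⟩ := parts_blocks hd β hβ R₀ hR₀ hOB 𝒞 c hcunit η hη0 hηd ps Q
    (fun p hp => ⟨(hps p hp).1, (hps p hp).2.2.1, (hps p hp).2.2.2⟩) hfloor hQunit hRes
  set ms : Multiset (EuclideanSpace ℝ (Fin d))
    := ∑ γ ∈ 𝒞, (((Q γ).drop (ps.map (fun p => ⌊p γ⌋₊)).sum : List _) : Multiset _) with hms
  set Y := ms.toList with hY
  have hYcoe : (Y : Multiset (EuclideanSpace ℝ (Fin d))) = ms := Multiset.coe_toList ms
  have hYlen : Y.length ≤ ps.length * (d + 1) := by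
    have h1 : (Y.length : ℝ) = ∑ γ ∈ 𝒞, ((ps.map (fun p => p γ)).sum
        - (((ps.map (fun p => ⌊p γ⌋₊)).sum : ℕ) : ℝ)) := by
      have h2 : Y.length = ∑ γ ∈ 𝒞, ((Q γ).length - (ps.map (fun p => ⌊p γ⌋₊)).sum) := by
        rw [hY, Multiset.length_toList, hms, Multiset.card_sum]
        apply Finset.sum_congr rfl
        intro γ _
        simp
      rw [h2]
      push_cast
      apply Finset.sum_congr rfl
      intro γ hγ
      rw [hpssum γ hγ, Nat.cast_sub (hfloor γ hγ)]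
      push_cast
      rfl
    have h3 := fract_total (d := d) 𝒞 ps (fun p hp => ⟨(hps p hp).1, (hps p hp).2.2.1⟩)
    rw [← h1] at h3
    exact_mod_cast h3
  have hYunit : ∀ v ∈ Y, ‖v‖ ≤ 1 := by
    intro v hv
    have h1 : v ∈ ms := by rw [← hYcoe]; simpa using hv
    rw [hms, Multiset.mem_sum] at h1
    obtain ⟨γ, hγ, h2⟩ := h1
    exact hQunit γ hγ v (List.mem_of_mem_drop (by simpa using h2))
  have hbound0 : 0 ≤ 4 * ((5 + 4 * β) * Real.sqrt ((d:ℝ) + 1) + 1/4) + 1 := by positivity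
  have h𝒞card : 𝒞.card ≤ (2 * L * 1 + 1) ^ d := by
    rw [← cell_card d L 1]
    apply Finset.card_le_card
    intro γ hγ
    obtain ⟨v, hv, rfl⟩ := List.mem_map.1 (List.mem_toFinset.1 hγ)
    apply cell_mem 1
    simpa using hl1 v hv
  refine ⟨B₁ ++ Y.map (fun v => [v]), ?_, ?_, ?_⟩
  · rw [List.flatten_append, ← Multiset.coe_add]
    rw [flatten_singletons, hYcoe, hB1, hQcoe]
  · rw [List.length_append, List.length_map]
    calc B₁.length + Y.length
        ≤ ps.length * (2 * (2 * (2 * d) * R₀ + 1) ^ d) + ps.length * (d + 1) := add_le_add hB2 hYlen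
      _ = ps.length * (2 * (2 * (2 * d) * R₀ + 1) ^ d + d + 1) := by ring
      _ ≤ (2 * L * 1 + 1) ^ d * (2 * (2 * (2 * d) * R₀ + 1) ^ d + d + 1) :=
          Nat.mul_le_mul_right _ (hpslen.trans h𝒞card)
  · intro b hb
    rcases List.mem_append.1 hb with h | h
    · exact hB3 b h
    · obtain ⟨v, hv, rfl⟩ := List.mem_map.1 h
      have hv1 := hYunit v hv
      constructor
      · simpa using hv1
      · intro j
        rcases j with _ | j
        · simpa using hbound0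
        · simp only [List.take_succ_cons, List.take_nil, List.sum_cons, List.sum_nil, add_zero]
          have : (0:ℝ) ≤ (5 + 4 * β) * Real.sqrt ((d:ℝ) + 1) + 1/4 := by positivity
          linarith

end Vale.Agent.Lib.P262
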