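import Vale.Agent.Lib.P262.Embed

open Finset

namespace Vale.Agent.Lib.P262

variable {ι : Type*} [DecidableEq ι]

lemma single_step (I : Finset ι) (a b : ι → ℕ) (hm : ∀ i ∈ I, a i ≤ b i)
    (hu : ∑ i ∈ I, b i ≤ ∑ i ∈ I, a i + 1) :
    (∀ i ∈ I, b i = a i) ∨ ∃ i₀ ∈ I, b i₀ = a i₀ + 1 ∧ ∀ i ∈ I, i ≠ i₀ → b i = a i := by
  by_cases h : ∀ i ∈ I, b i = a i
  · exact Or.inl h
  · right
    push Not at h
    obtain ⟨i₀, hi₀, hne⟩ := h
    have hlt : a i₀ < b i₀ := lt_of_le_of_ne (hm i₀ hi₀) (Ne.symm hne)
    have e1 : ∑ i ∈ I, b i = b i₀ + ∑ i ∈ I.erase i₀, b i := (Finset.add_sum_erase I b hi₀).symm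
    have e2 : ∑ i ∈ I, a i = a i₀ + ∑ i ∈ I.erase i₀, a i := (Finset.add_sum_erase I a hi₀).symm
    have h3 : ∑ i ∈ I.erase i₀, a i ≤ ∑ i ∈ I.erase i₀, b i :=
      Finset.sum_le_sum (fun i hi => hm i (Finset.mem_of_mem_erase hi))
    refine ⟨i₀, hi₀, by omega, ?_⟩
    intro i hi hne'
    by_contra hcon
    have hlt2 : a i < b i := lt_of_le_of_ne (hm i hi) (Ne.symm hcon)
    have h4 : ∑ i ∈ I.erase i₀, a i < ∑ i ∈ I.erase i₀, b i := by
      apply Finset.sum_lt_sum (fun i hi => hm i (Finset.mem_of_mem_erase hi))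
      exact ⟨i, Finset.mem_erase.2 ⟨hne', hi⟩, hlt2⟩
    omega

variable {E : Type*} [AddCommGroup E]

lemma msum (I : Finset ι) (F : ι → List E) :
    (∑ i ∈ I, ((F i : List E) : Multiset E)).sum = ∑ i ∈ I, (F i).sum := by
  induction I using Finset.induction_on with
  | empty => simp
  | insert j s hj ih =>
    rw [Finset.sum_insert hj, Finset.sum_insert hj, Multiset.sum_add, ih]
    simp

omit [DecidableEq ι] in
lemma path_le_stop (I : Finset ι) (Q : ℕ) (x : ℕ → ι → ℕ)
    (hmono : ∀ t < Q, ∀ i ∈ I, x t i ≤ x (t+1) i) {t : ℕ} (ht : t ≤ Q) {i : ι} (hi : i ∈ I) :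
    x t i ≤ x Q i := by
  obtain ⟨s, rfl⟩ : ∃ s, Q = t + s := ⟨Q - t, by omega⟩
  clear ht
  induction s with
  | zero => exact le_refl _
  | succ s ih =>
    have h1 := ih (fun t' ht' i' hi' => hmono t' (by omega) i' hi')
    exact h1.trans (hmono (t + s) (by omega) i hi)

/-- from a unit-step path to a list of queue elements -/
lemma fill_word (I : Finset ι) (Q : ℕ) (x : ℕ → ι → ℕ) (q : ι → List E)
    (hstart : ∀ i ∈ I, x 0 i = 0)
    (hmono : ∀ t < Q, ∀ i ∈ I, x t i ≤ x (t+1) i)
    (hunit : ∀ t < Q, ∑ i ∈ I, x (t+1) i ≤ ∑ i ∈ I, x t i + 1)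
    (hstop : ∀ i ∈ I, x Q i ≤ (q i).length) :
    ∀ t ≤ Q, ∃ (W : List E) (f : ℕ → ℕ),
      (W : Multiset E) = ∑ i ∈ I, (((q i).take (x t i) : List E) : Multiset E) ∧
      (∀ k ≤ W.length, f k ≤ t ∧ (W.take k).sum = ∑ i ∈ I, ((q i).take (x (f k) i)).sum) ∧
      (∀ k < W.length, f k ≤ f (k+1)) := by
  intro t
  induction t with
  | zero =>
    intro _
    refine ⟨[], fun _ => 0, ?_, ?_, by simp⟩
    · symm
      apply Finset.sum_eq_zero
      intro i hi
      simp [hstart i hi]
    · intro k _
      refine ⟨le_refl _, ?_⟩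
      simp only [List.take_nil, List.sum_nil]
      symm
      apply Finset.sum_eq_zero
      intro i hi
      simp [hstart i hi]
  | succ t ih =>
    intro ht
    have htQ : t < Q := by omega
    obtain ⟨W, f, h1, h2, h3⟩ := ih htQ.le
    rcases single_step I (x t) (x (t+1)) (hmono t htQ) (hunit t htQ) with heq | ⟨i₀, hi₀, hstep, hoth⟩
    · refine ⟨W, f, ?_, ?_, h3⟩
      · rw [h1]
        apply Finset.sum_congr rfl
        intro i hi
        rw [heq i hi]
      · intro k hk
        obtain ⟨h4, h5⟩ := h2 k hk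
        exact ⟨by omega, h5⟩
    · have hlt : x t i₀ < (q i₀).length := by
        have h4 := path_le_stop I Q x hmono (show t + 1 ≤ Q from ht) hi₀
        have h5 := hstop i₀ hi₀
        omega
      set v := (q i₀)[x t i₀] with hv
      have hnew : (((W ++ [v] : List E)) : Multiset E)
          = ∑ i ∈ I, (((q i).take (x (t+1) i) : List E) : Multiset E) := by
        rw [← Multiset.coe_add, h1, ← Finset.add_sum_erase I _ hi₀,
          ← Finset.add_sum_erase I (fun i => (((q i).take (x (t+1) i) : List E) : Multiset E)) hi₀]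
        have e1 : ∑ i ∈ I.erase i₀, (((q i).take (x (t+1) i) : List E) : Multiset E)
            = ∑ i ∈ I.erase i₀, (((q i).take (x t i) : List E) : Multiset E) := by
          apply Finset.sum_congr rfl
          intro i hi
          obtain ⟨hne, hiI⟩ := Finset.mem_erase.1 hi
          rw [hoth i hiI hne]
        have e2 : (((q i₀).take (x (t+1) i₀) : List E) : Multiset E)
            = (((q i₀).take (x t i₀) : List E) : Multiset E) + (([v] : List E) : Multiset E) := by
          rw [hstep, List.take_succ_eq_append_getElem hlt, Multiset.coe_add]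
        rw [e1, e2]
        abel
      have hnewsum : (W ++ [v]).sum = ∑ i ∈ I, ((q i).take (x (t+1) i)).sum := by
        have := congrArg Multiset.sum hnew
        rw [msum, Multiset.sum_coe] at this
        exact this
      refine ⟨W ++ [v], fun k => if k ≤ W.length then f k else t + 1, hnew, ?_, ?_⟩
      · intro k hk
        by_cases hkW : k ≤ W.length
        · simp only [hkW, if_true]
          obtain ⟨h4, h5⟩ := h2 k hkW
          refine ⟨by omega, ?_⟩
          rw [List.take_append_of_le_length hkW]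
          exact h5
        · simp only [hkW, if_false]
          refine ⟨le_refl _, ?_⟩
          have : (W ++ [v]).take k = W ++ [v] := by
            apply List.take_of_length_le
            simp only [List.length_append, List.length_singleton] at hk ⊢
            omega
          rw [this]
          exact hnewsum
      · intro k hk
        simp only [List.length_append, List.length_singleton] at hk
        have hk' : k ≤ W.length := by omega
        simp only [hk', if_true]
        by_cases hk2 : k + 1 ≤ W.length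
        · simp only [hk2, if_true]
          exact h3 k (by omega)
        · simp only [hk2, if_false]
          have := (h2 k hk').1
          omega

/-- a section: a list of the queue elements that stays close to a segment -/
lemma section_word {d : ℕ} (β : ℝ) (hβ : 0 ≤ β) (I : Finset ι) (c : ι → EuclideanSpace ℝ (Fin d))
    (hc : ∀ i ∈ I, ‖c i‖ ≤ 1) (y : ι → ℕ) (hy : ∀ i ∈ I, 1 ≤ y i)
    (hOB : ∀ r, 1 ≤ r → r ≤ I.card → OrderBound r (20 * r * 103 ^ r) (β * Real.sqrt r))
    (q : ι → List (EuclideanSpace ℝ (Fin d))) (hlen : ∀ i ∈ I, (q i).length = y i) (η : ℝ)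
    (hres : ∀ i ∈ I, ∀ k, ‖((q i).take k).sum - (((q i).take k).length : ℝ) • c i‖ ≤ η) :
    ∃ (W : List (EuclideanSpace ℝ (Fin d))) (τ : ℕ → ℝ),
      (W : Multiset (EuclideanSpace ℝ (Fin d))) = ∑ i ∈ I, ((q i : List _) : Multiset _) ∧
      (∀ k ≤ W.length, 0 ≤ τ k ∧ τ k ≤ 1) ∧ (∀ k < W.length, τ k ≤ τ (k+1)) ∧
      ∀ k ≤ W.length, ‖(W.take k).sum - τ k • ∑ i ∈ I, (y i : ℝ) • c i‖
        ≤ (5 + 4 * β) * Real.sqrt I.card + I.card * η := by
  obtain ⟨Q, x, hQ, h0, hQy, hmono, hunit, hdev⟩ := exists_path β hβ I c hc y hy hOB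
  obtain ⟨W, f, h1, h2, h3⟩ := fill_word I Q x q h0 hmono hunit
    (fun i hi => by rw [hQy i hi, hlen i hi]) Q (le_refl _)
  have hQ' : (0:ℝ) < Q := by exact_mod_cast hQ
  refine ⟨W, fun k => (f k : ℝ) / Q, ?_, ?_, ?_, ?_⟩
  · rw [h1]
    apply Finset.sum_congr rfl
    intro i hi
    rw [hQy i hi, ← hlen i hi, List.take_length]
  · intro k hk
    refine ⟨by positivity, ?_⟩
    rw [div_le_one hQ']
    exact_mod_cast (h2 k hk).1
  · intro k hk
    apply div_le_div_of_nonneg_right _ hQ'.le
    exact_mod_cast h3 k hk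
  · intro k hk
    obtain ⟨hfk, hsum⟩ := h2 k hk
    set t := f k with ht
    set τ : ℝ := (t : ℝ) / Q with hτ
    have hstate : (W.take k).sum - τ • ∑ i ∈ I, (y i : ℝ) • c i
        = ∑ i ∈ I, ((x t i : ℝ) - τ * y i) • c i
          + ∑ i ∈ I, (((q i).take (x t i)).sum - (((q i).take (x t i)).length : ℝ) • c i) := by
      rw [hsum, Finset.smul_sum, ← Finset.sum_sub_distrib, ← Finset.sum_add_distrib]
      apply Finset.sum_congr rfl
      intro i hi
      have hle : x t i ≤ (q i).length := by
        rw [hlen i hi, ← hQy i hi]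
        exact path_le_stop I Q x hmono hfk hi
      have hl : (((q i).take (x t i)).length : ℝ) = x t i := by
        rw [List.length_take, min_eq_left hle]
      rw [hl, sub_smul, mul_smul]
      abel
    rw [hstate]
    have hres' : ‖∑ i ∈ I, (((q i).take (x t i)).sum - (((q i).take (x t i)).length : ℝ) • c i)‖
        ≤ I.card * η := by
      calc _ ≤ ∑ i ∈ I, ‖((q i).take (x t i)).sum - (((q i).take (x t i)).length : ℝ) • c i‖ :=
            norm_sum_le _ _
        _ ≤ ∑ i ∈ I, η := Finset.sum_le_sum (fun i hi => hres i hi _)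
        _ = I.card * η := by simp
    have hmain : ‖∑ i ∈ I, ((x t i : ℝ) - τ * y i) • c i‖ ≤ (5 + 4 * β) * Real.sqrt I.card := by
      by_cases htQ : t < Q
      · apply hdev t htQ τ (le_refl _)
        rw [hτ]
        apply div_le_div_of_nonneg_right _ hQ'.le
        linarith
      · have htQ' : t = Q := by omega
        have hτ1 : τ = 1 := by
          rw [hτ, htQ']
          exact div_self hQ'.ne'
        have : ∑ i ∈ I, ((x t i : ℝ) - τ * y i) • c i = 0 := by
          apply Finset.sum_eq_zero
          intro i hi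
          rw [htQ', hτ1, hQy i hi]
          simp
        rw [this, norm_zero]
        positivity
    exact (norm_add_le _ _).trans (add_le_add hmain hres')

end Vale.Agent.Lib.P262
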